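import Vale.Agent.P075.Sampled

/-! The bound by the sum of the cubes of the three norms. -/

open MeasureTheory Set

namespace P075

variable {F0 F1 F2 : ℝ × ℝ → ℝ}

theorem cube_integrable (h0 : Adm F0) (h1 : Adm F1) (h2 : Adm F2) (d : ℝ) (j p q : ℕ) :
    IntegrableOn (fun u => cube (s0 F0 d u) (s1 F1 d u) (s2 F2 d u) j p q) (QQ d) := by
  unfold cube
  apply Integrable.const_mul
  refine integrable_finsetSum _ fun a _ => integrable_finsetSum _ fun b _ =>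
    integrable_finsetSum _ fun c _ => ?_
  apply Integrable.mul_const
  exact prod_integrable h0 h1 h2 d _ _ _ (s := QQ d) (vol3_ne _ _ _ _ _ _)

theorem abs3_meas {F : ℝ × ℝ → ℝ} (h : Adm F) : Measurable fun x => |F x| ^ 3 := by
  have := h.1
  fun_prop

theorem abs3_bdd {F : ℝ × ℝ → ℝ} (h : Adm F) : ∃ M : ℝ, ∀ x, |(|F x| ^ 3)| ≤ M := by
  obtain ⟨-, ⟨M, hM⟩, -⟩ := h
  refine ⟨M ^ 3, fun x => ?_⟩
  rw [abs_of_nonneg (by positivity)]
  exact pow_le_pow_left₀ (abs_nonneg _) (hM x) 3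

theorem abs3_int0 {F : ℝ × ℝ → ℝ} (h : Adm F) (d : ℝ) (a b : ℕ) :
    IntegrableOn (fun u => |s0 F d u a b| ^ 3) (QQ d) := by
  obtain ⟨M, hM⟩ := abs3_bdd h
  have hx : Measurable fun x : ℝ × ℝ × ℝ => x.1 := measurable_fst
  have hy : Measurable fun x : ℝ × ℝ × ℝ => x.2.1 := measurable_fst.comp measurable_snd
  exact integrableOn3 (M := M) (meas_pair (abs3_meas h) (hx.add_const (d * a))
    (hy.add_const (d * b))) (fun _ => hM _) (vol3_ne _ _ _ _ _ _)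

theorem abs3_int1 {F : ℝ × ℝ → ℝ} (h : Adm F) (d : ℝ) (a b : ℕ) :
    IntegrableOn (fun u => |s1 F d u a b| ^ 3) (QQ d) := by
  obtain ⟨M, hM⟩ := abs3_bdd h
  have hy : Measurable fun x : ℝ × ℝ × ℝ => x.2.1 := measurable_fst.comp measurable_snd
  have hz : Measurable fun x : ℝ × ℝ × ℝ => x.2.2 := measurable_snd.comp measurable_snd
  exact integrableOn3 (M := M) (meas_pair (abs3_meas h) (hy.add_const (d * a))
    (hz.add_const (d * b))) (fun _ => hM _) (vol3_ne _ _ _ _ _ _)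

theorem abs3_int2 {F : ℝ × ℝ → ℝ} (h : Adm F) (d : ℝ) (a b : ℕ) :
    IntegrableOn (fun u => |s2 F d u a b| ^ 3) (QQ d) := by
  obtain ⟨M, hM⟩ := abs3_bdd h
  have hx : Measurable fun x : ℝ × ℝ × ℝ => x.1 := measurable_fst
  have hz : Measurable fun x : ℝ × ℝ × ℝ => x.2.2 := measurable_snd.comp measurable_snd
  exact integrableOn3 (M := M) (meas_pair (abs3_meas h) (hz.add_const (d * a))
    (hx.add_const (d * b))) (fun _ => hM _) (vol3_ne _ _ _ _ _ _)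

theorem bound_scaled (h0 : Adm F0) (h1 : Adm F1) (h2 : Adm F2) (k0 : ℤ) (K : ℕ) :
    ∑ j ∈ Finset.range K, ∑ p ∈ Finset.range (2 ^ (K - 1 - j)),
      ∑ q ∈ Finset.range (2 ^ (K - 1 - j)), |LI (k0 + (j + 1)) (p, q, p ^^^ q) F0 F1 F2| ≤
    896 * ((∫ x in Iv ((2:ℝ) ^ k0 * (2 ^ K : ℕ)) 0 ×ˢ Iv ((2:ℝ) ^ k0 * (2 ^ K : ℕ)) 0, |F0 x| ^ 3) +
      (∫ x in Iv ((2:ℝ) ^ k0 * (2 ^ K : ℕ)) 0 ×ˢ Iv ((2:ℝ) ^ k0 * (2 ^ K : ℕ)) 0, |F1 x| ^ 3) +
      (∫ x in Iv ((2:ℝ) ^ k0 * (2 ^ K : ℕ)) 0 ×ˢ Iv ((2:ℝ) ^ k0 * (2 ^ K : ℕ)) 0, |F2 x| ^ 3)) := by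
  set d : ℝ := (2:ℝ) ^ k0 with hdd
  have hd : 0 < d := by positivity
  have hci := fun j p q : ℕ => (cube_integrable h0 h1 h2 d j p q).abs
  have hsi : ∀ p q : ℕ, Integrable (fun u => |s0 F0 d u p q| ^ 3 + |s1 F1 d u p q| ^ 3 +
      |s2 F2 d u p q| ^ 3) (volume.restrict (QQ d)) := fun p q =>
    ((abs3_int0 h0 d p q).add (abs3_int1 h1 d p q)).add (abs3_int2 h2 d p q)
  -- bound by the integral of the discrete sum
  have hA : ∑ j ∈ Finset.range K, ∑ p ∈ Finset.range (2 ^ (K - 1 - j)),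
      ∑ q ∈ Finset.range (2 ^ (K - 1 - j)), |LI (k0 + (j + 1)) (p, q, p ^^^ q) F0 F1 F2| ≤
      d⁻¹ * ∫ u in QQ d, ∑ j ∈ Finset.range K, ∑ p ∈ Finset.range (2 ^ (K - 1 - j)),
        ∑ q ∈ Finset.range (2 ^ (K - 1 - j)),
          |cube (s0 F0 d u) (s1 F1 d u) (s2 F2 d u) j p q| := by
    rw [integral_finsetSum _ (fun j _ => integrable_finsetSum _ fun p _ =>
      integrable_finsetSum _ fun q _ => hci j p q), Finset.mul_sum]
    apply Finset.sum_le_sum; intro j _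
    rw [integral_finsetSum _ (fun p _ => integrable_finsetSum _ fun q _ => hci j p q),
      Finset.mul_sum]
    apply Finset.sum_le_sum; intro p _
    rw [integral_finsetSum _ (fun q _ => hci j p q), Finset.mul_sum]
    apply Finset.sum_le_sum; intro q _
    rw [slice k0 j p q h0 h1 h2, abs_mul, abs_of_pos (inv_pos.2 hd)]
    exact mul_le_mul_of_nonneg_left (abs_integral_le_integral_abs) (inv_pos.2 hd).le
  -- use the discrete inequality pointwise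
  have hB : (∫ u in QQ d, ∑ j ∈ Finset.range K, ∑ p ∈ Finset.range (2 ^ (K - 1 - j)),
        ∑ q ∈ Finset.range (2 ^ (K - 1 - j)),
          |cube (s0 F0 d u) (s1 F1 d u) (s2 F2 d u) j p q|) ≤
      ∫ u in QQ d, 896 * ∑ p ∈ Finset.range (2 ^ K), ∑ q ∈ Finset.range (2 ^ K),
        (|s0 F0 d u p q| ^ 3 + |s1 F1 d u p q| ^ 3 + |s2 F2 d u p q| ^ 3) := by
    apply integral_mono
    · exact integrable_finsetSum _ fun j _ => integrable_finsetSum _ fun p _ =>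
        integrable_finsetSum _ fun q _ => hci j p q
    · apply Integrable.const_mul
      exact integrable_finsetSum _ fun p _ => integrable_finsetSum _ fun q _ => hsi p q
    · intro u
      exact discrete _ _ _ K
  -- compute the right side
  have hC : (∫ u in QQ d, 896 * ∑ p ∈ Finset.range (2 ^ K), ∑ q ∈ Finset.range (2 ^ K),
        (|s0 F0 d u p q| ^ 3 + |s1 F1 d u p q| ^ 3 + |s2 F2 d u p q| ^ 3)) =
      896 * (d * (∫ x in Iv (d * (2 ^ K : ℕ)) 0 ×ˢ Iv (d * (2 ^ K : ℕ)) 0, |F0 x| ^ 3) +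
      d * (∫ x in Iv (d * (2 ^ K : ℕ)) 0 ×ˢ Iv (d * (2 ^ K : ℕ)) 0, |F1 x| ^ 3) +
      d * (∫ x in Iv (d * (2 ^ K : ℕ)) 0 ×ˢ Iv (d * (2 ^ K : ℕ)) 0, |F2 x| ^ 3)) := by
    obtain ⟨M0, hM0⟩ := abs3_bdd h0
    obtain ⟨M1, hM1⟩ := abs3_bdd h1
    obtain ⟨M2, hM2⟩ := abs3_bdd h2
    have hpos : 0 < 2 ^ K := by positivity
    rw [← samp0 hd hpos (abs3_meas h0) hM0, ← samp1 hd hpos (abs3_meas h1) hM1,
      ← samp2 hd hpos (abs3_meas h2) hM2, integral_const_mul]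
    congr 1
    rw [integral_finsetSum _ (fun p _ => integrable_finsetSum _ fun q _ => hsi p q),
      ← Finset.sum_add_distrib, ← Finset.sum_add_distrib]
    apply Finset.sum_congr rfl; intro p _
    rw [integral_finsetSum _ (fun q _ => hsi p q),
      ← Finset.sum_add_distrib, ← Finset.sum_add_distrib]
    apply Finset.sum_congr rfl; intro q _
    have e1 : (∫ u in QQ d, (|s0 F0 d u p q| ^ 3 + |s1 F1 d u p q| ^ 3 + |s2 F2 d u p q| ^ 3)) =
        (∫ u in QQ d, (|s0 F0 d u p q| ^ 3 + |s1 F1 d u p q| ^ 3)) +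
          ∫ u in QQ d, |s2 F2 d u p q| ^ 3 :=
      integral_add ((abs3_int0 h0 d p q).add (abs3_int1 h1 d p q)) (abs3_int2 h2 d p q)
    have e2 : (∫ u in QQ d, (|s0 F0 d u p q| ^ 3 + |s1 F1 d u p q| ^ 3)) =
        (∫ u in QQ d, |s0 F0 d u p q| ^ 3) + ∫ u in QQ d, |s1 F1 d u p q| ^ 3 :=
      integral_add (abs3_int0 h0 d p q) (abs3_int1 h1 d p q)
    rw [e1, e2]
    rfl
  rw [hC] at hB
  refine le_trans hA (le_trans (mul_le_mul_of_nonneg_left hB (inv_pos.2 hd).le) (le_of_eq ?_))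
  field_simp

end P075
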