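import Mathlib

/-! Definitions for the dyadic model of the triangular Hilbert form. -/

open MeasureTheory

namespace P075

/-- The dyadic interval `[2^k n, 2^k (n+1))`. -/
def dyad (k : ℤ) (n : ℕ) : Set ℝ := Set.Ico ((2 : ℝ) ^ k * n) ((2 : ℝ) ^ k * (n + 1))

/-- The Haar function of that interval: `1` on the left half, `-1` on the right half,
`0` elsewhere. -/
noncomputable def haar (k : ℤ) (n : ℕ) (x : ℝ) : ℝ :=
  (Set.Ico ((2 : ℝ) ^ k * n) ((2 : ℝ) ^ k * (n + 1 / 2))).indicator (fun _ => 1) x -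
    (Set.Ico ((2 : ℝ) ^ k * (n + 1 / 2)) ((2 : ℝ) ^ k * (n + 1))).indicator (fun _ => 1) x

/-- Index triples whose bitwise exclusive or is zero (the set `A_k`, for every `k`). -/
def Trip : Set (ℕ × ℕ × ℕ) := {n | n.1 ^^^ n.2.1 ^^^ n.2.2 = 0}

/-- The local form `L_I` for the triple `I` of dyadic intervals of side `2^k` with indices `n`. -/
noncomputable def LI (k : ℤ) (n : ℕ × ℕ × ℕ) (F0 F1 F2 : ℝ × ℝ → ℝ) : ℝ :=
  (2 : ℝ) ^ (-k) * ∫ x in dyad k n.1 ×ˢ dyad k n.2.1 ×ˢ dyad k n.2.2,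
    F0 (x.1, x.2.1) * F1 (x.2.1, x.2.2) * F2 (x.2.2, x.1) *
      (haar k n.1 x.1 * haar k n.2.1 x.2.1 * haar k n.2.2 x.2.2)

/-- The dyadic triangular form `Λ^d` with scales `S` and coefficients `ε`. -/
noncomputable def Lam (S : Finset ℤ) (ε : ℤ → ℝ) (F0 F1 F2 : ℝ × ℝ → ℝ) : ℝ :=
  ∑ k ∈ S, ε k * ∑' n : Trip, LI k n F0 F1 F2

/-- The norm of `L^3([0,∞)²)`. -/
noncomputable def nrm3 (F : ℝ × ℝ → ℝ) : ℝ :=
  (∫ p in Set.Ici (0 : ℝ) ×ˢ Set.Ici (0 : ℝ), |F p| ^ 3) ^ (1 / 3 : ℝ)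

/-- Measurable, bounded, compactly supported. -/
def Adm (F : ℝ × ℝ → ℝ) : Prop :=
  Measurable F ∧ (∃ M : ℝ, ∀ p, |F p| ≤ M) ∧ HasCompactSupport F

end P075
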