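import Vale.Agent.P075.Tree

/-! The discrete form of the main estimate. -/

open Matrix Filter

namespace P075

/-- The signed cube sum at level `j + 1`, normalised. -/
noncomputable def cube (f0 f1 f2 : ℕ → ℕ → ℝ) (j p q : ℕ) : ℝ :=
  (1 / 2 ^ (j + 1)) * ∑ a ∈ Finset.range (2 ^ (j + 1)), ∑ b ∈ Finset.range (2 ^ (j + 1)),
    ∑ c ∈ Finset.range (2 ^ (j + 1)),
      f0 (2 ^ (j + 1) * p + a) (2 ^ (j + 1) * q + b) *
      f1 (2 ^ (j + 1) * q + b) (2 ^ (j + 1) * (p ^^^ q) + c) *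
      f2 (2 ^ (j + 1) * (p ^^^ q) + c) (2 ^ (j + 1) * p + a) *
      ((if a < 2 ^ j then 1 else -1) * (if b < 2 ^ j then 1 else -1) *
        (if c < 2 ^ j then 1 else -1))

theorem val_lt : ∀ (n : ℕ) (i : T n), val n i < 2 ^ n
  | 0, _ => by simp [val]
  | (n + 1), p => by
      have h := val_lt n p.1
      show val n p.1 + 2 ^ n * p.2.toNat < 2 ^ (n + 1)
      have : p.2.toNat ≤ 1 := Bool.toNat_le _
      have h2 : 2 ^ n * p.2.toNat ≤ 2 ^ n * 1 := Nat.mul_le_mul_left _ this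
      rw [pow_succ]
      omega

theorem sg_val (j : ℕ) (i : T j × Bool) :
    sg i.2 = if val (j + 1) (show T (j + 1) from i) < 2 ^ j then (1:ℝ) else -1 := by
  rcases i with ⟨i, a⟩
  have h := val_lt j i
  show sg a = if val j i + 2 ^ j * a.toNat < 2 ^ j then (1:ℝ) else -1
  cases a
  · rw [if_pos (by simpa using h)]; simp [sg]
  · rw [if_neg (by simp)]; simp [sg]

theorem trace_DD {ι : Type*} [Fintype ι] [DecidableEq ι] (A B C : Matrix (ι × Bool) (ι × Bool) ℝ) :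
    ((DD ι * A) * (DD ι * B) * (DD ι * C)).trace =
      ∑ i : ι × Bool, ∑ j : ι × Bool, ∑ k : ι × Bool,
        A i j * B j k * C k i * (sg i.2 * sg j.2 * sg k.2) := by
  rw [Matrix.trace]
  apply Finset.sum_congr rfl; intro i _
  rw [Matrix.diag_apply, Matrix.mul_apply]
  have : ∀ k : ι × Bool, ((DD ι * A) * (DD ι * B)) i k * (DD ι * C) k i =
      ∑ j : ι × Bool, A i j * B j k * C k i * (sg i.2 * sg j.2 * sg k.2) := by
    intro k
    rw [Matrix.mul_apply, Finset.sum_mul]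
    apply Finset.sum_congr rfl; intro j _
    unfold DD
    rw [Matrix.diagonal_mul, Matrix.diagonal_mul, Matrix.diagonal_mul]
    ring
  simp_rw [this]
  rw [Finset.sum_comm]

theorem cube_eq (f0 f1 f2 : ℕ → ℕ → ℝ) (j p q : ℕ) :
    cube f0 f1 f2 j p q = 4 ^ (j + 1) *
      ((DD (T j) * (show Matrix (T j × Bool) (T j × Bool) ℝ from mat f0 (j + 1) p q)) *
       (DD (T j) * (show Matrix (T j × Bool) (T j × Bool) ℝ from mat f1 (j + 1) q (p ^^^ q))) *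
       (DD (T j) * (show Matrix (T j × Bool) (T j × Bool) ℝ from
          mat f2 (j + 1) (p ^^^ q) p))).trace := by
  rw [trace_DD]
  have e1 : ∑ i : T j × Bool, ∑ j' : T j × Bool, ∑ k : T j × Bool,
      (show Matrix (T j × Bool) (T j × Bool) ℝ from mat f0 (j + 1) p q) i j' *
      (show Matrix (T j × Bool) (T j × Bool) ℝ from mat f1 (j + 1) q (p ^^^ q)) j' k *
      (show Matrix (T j × Bool) (T j × Bool) ℝ from mat f2 (j + 1) (p ^^^ q) p) k i *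
        (sg i.2 * sg j'.2 * sg k.2) =
      ∑ i : T (j + 1), ∑ j' : T (j + 1), ∑ k : T (j + 1),
        (fun a => (fun b => (fun c =>
      (f0 (2 ^ (j + 1) * p + a) (2 ^ (j + 1) * q + b) / 2 ^ (j + 1)) *
      (f1 (2 ^ (j + 1) * q + b) (2 ^ (j + 1) * (p ^^^ q) + c) / 2 ^ (j + 1)) *
      (f2 (2 ^ (j + 1) * (p ^^^ q) + c) (2 ^ (j + 1) * p + a) / 2 ^ (j + 1)) *
      ((if a < 2 ^ j then 1 else -1) * (if b < 2 ^ j then 1 else -1) *
        (if c < 2 ^ j then 1 else -1))) (val (j + 1) k)) (val (j + 1) j')) (val (j + 1) i) := by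
    show ∑ i : T j × Bool, _ = ∑ i : T j × Bool, _
    apply Finset.sum_congr rfl; intro i _
    show ∑ j' : T j × Bool, _ = ∑ j' : T j × Bool, _
    apply Finset.sum_congr rfl; intro j' _
    show ∑ k : T j × Bool, _ = ∑ k : T j × Bool, _
    apply Finset.sum_congr rfl; intro k _
    rw [sg_val j i, sg_val j j', sg_val j k]
    rfl
  rw [e1]
  have e2 : ∀ g : ℕ → ℕ → ℕ → ℝ, ∑ i : T (j + 1), ∑ j' : T (j + 1), ∑ k : T (j + 1),
      g (val (j + 1) i) (val (j + 1) j') (val (j + 1) k) =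
      ∑ a ∈ Finset.range (2 ^ (j + 1)), ∑ b ∈ Finset.range (2 ^ (j + 1)),
        ∑ c ∈ Finset.range (2 ^ (j + 1)), g a b c := by
    intro g
    have h1 : ∀ a b : ℕ, ∑ k : T (j + 1), g a b (val (j + 1) k) =
        ∑ c ∈ Finset.range (2 ^ (j + 1)), g a b c := fun a b => sum_T_range (j + 1) (g a b)
    simp_rw [h1]
    have h2 : ∀ a : ℕ, ∑ j' : T (j + 1), ∑ c ∈ Finset.range (2 ^ (j + 1)), g a (val (j + 1) j') c =
        ∑ b ∈ Finset.range (2 ^ (j + 1)), ∑ c ∈ Finset.range (2 ^ (j + 1)), g a b c :=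
      fun a => sum_T_range (j + 1) (fun b => ∑ c ∈ Finset.range (2 ^ (j + 1)), g a b c)
    simp_rw [h2]
    exact sum_T_range (j + 1) (fun a => ∑ b ∈ Finset.range (2 ^ (j + 1)),
      ∑ c ∈ Finset.range (2 ^ (j + 1)), g a b c)
  refine Eq.trans ?_ (congrArg (fun t => (4:ℝ) ^ (j + 1) * t) (e2 (fun a b c =>
      (f0 (2 ^ (j + 1) * p + a) (2 ^ (j + 1) * q + b) / 2 ^ (j + 1)) *
      (f1 (2 ^ (j + 1) * q + b) (2 ^ (j + 1) * (p ^^^ q) + c) / 2 ^ (j + 1)) *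
      (f2 (2 ^ (j + 1) * (p ^^^ q) + c) (2 ^ (j + 1) * p + a) / 2 ^ (j + 1)) *
      ((if a < 2 ^ j then 1 else -1) * (if b < 2 ^ j then 1 else -1) *
        (if c < 2 ^ j then 1 else -1)))).symm)
  unfold cube
  simp only [Finset.mul_sum]
  apply Finset.sum_congr rfl; intro a _
  apply Finset.sum_congr rfl; intro b _
  apply Finset.sum_congr rfl; intro c _
  have h4 : (4:ℝ) ^ (j + 1) = 2 ^ (j + 1) * 2 ^ (j + 1) := by
    rw [← mul_pow]; norm_num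
  rw [h4]
  field_simp

theorem cube_root_bound (u v : ℝ) : (Real.sqrt (u ^ 2 + v ^ 2)) ^ 3 ≤ 4 * (|u| ^ 3 + |v| ^ 3) := by
  have h1 : Real.sqrt (u ^ 2 + v ^ 2) ≤ |u| + |v| := by
    rw [Real.sqrt_le_left (by positivity)]
    nlinarith [sq_abs u, sq_abs v, mul_nonneg (abs_nonneg u) (abs_nonneg v)]
  have h2 : (Real.sqrt (u ^ 2 + v ^ 2)) ^ 3 ≤ (|u| + |v|) ^ 3 :=
    pow_le_pow_left₀ (Real.sqrt_nonneg _) h1 3
  refine h2.trans ?_
  have ha := abs_nonneg u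
  have hb := abs_nonneg v
  nlinarith [mul_nonneg (add_nonneg ha hb) (sq_nonneg (|u| - |v|))]

theorem sum_xor (K q : ℕ) (hq : q < 2 ^ K) (h : ℕ → ℝ) :
    ∑ p ∈ Finset.range (2 ^ K), h (p ^^^ q) = ∑ p ∈ Finset.range (2 ^ K), h p := by
  apply Finset.sum_nbij' (fun p => p ^^^ q) (fun p => p ^^^ q)
  · intro p hp
    simp only [Finset.mem_range] at *
    exact Nat.xor_lt_two_pow hp hq
  · intro p hp
    simp only [Finset.mem_range] at *
    exact Nat.xor_lt_two_pow hp hq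
  · intro p _
    rw [Nat.xor_assoc, Nat.xor_self, Nat.xor_zero]
  · intro p _
    rw [Nat.xor_assoc, Nat.xor_self, Nat.xor_zero]
  · intro p _
    rfl

/-- **Discrete estimate**, uniform in the number of scales. -/
theorem discrete (f0 f1 f2 : ℕ → ℕ → ℝ) (K : ℕ) :
    ∑ j ∈ Finset.range K, ∑ p ∈ Finset.range (2 ^ (K - 1 - j)),
      ∑ q ∈ Finset.range (2 ^ (K - 1 - j)), |cube f0 f1 f2 j p q| ≤
    896 * ∑ p ∈ Finset.range (2 ^ K), ∑ q ∈ Finset.range (2 ^ K),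
      (|f0 p q| ^ 3 + |f1 p q| ^ 3 + |f2 p q| ^ 3) := by
  -- choose a common number of scales
  have hev : ∀ᶠ L : ℕ in atTop, ∀ j ∈ Finset.range K, ∀ p ∈ Finset.range (2 ^ (K - 1 - j)),
      ∀ q ∈ Finset.range (2 ^ (K - 1 - j)), |cube f0 f1 f2 j p q| ≤
        4 ^ (j + 1) * (16 * ∑ k ∈ Finset.range (2 * L + 1), (2 ^ k / 2 ^ L : ℝ) ^ 3 *
          GGC (fun x y => (2 ^ k / 2 ^ L : ℝ)⁻¹ * f0 x y) (fun x y => (2 ^ k / 2 ^ L : ℝ)⁻¹ * f1 x y)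
            (fun x y => (2 ^ k / 2 ^ L : ℝ)⁻¹ * f2 x y) j p q) := by
    rw [Filter.eventually_all_finset]
    intro j _
    rw [Filter.eventually_all_finset]
    intro p _
    rw [Filter.eventually_all_finset]
    intro q _
    filter_upwards [local_estimate (ι := T j) (mat f0 (j + 1) p q) (mat f1 (j + 1) q (p ^^^ q))
      (mat f2 (j + 1) (p ^^^ q) p)] with L hL
    rw [cube_eq, abs_mul, abs_of_nonneg (by positivity : (0:ℝ) ≤ 4 ^ (j + 1))]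
    apply mul_le_mul_of_nonneg_left _ (by positivity)
    refine hL.trans (le_of_eq ?_)
    congr 1
    apply Finset.sum_congr rfl; intro k _
    unfold GGC
    rw [← mat_smul, ← mat_smul, ← mat_smul]
    rfl
  obtain ⟨L, hL⟩ := hev.exists
  have step1 : ∑ j ∈ Finset.range K, ∑ p ∈ Finset.range (2 ^ (K - 1 - j)),
      ∑ q ∈ Finset.range (2 ^ (K - 1 - j)), |cube f0 f1 f2 j p q| ≤
      ∑ j ∈ Finset.range K, ∑ p ∈ Finset.range (2 ^ (K - 1 - j)),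
      ∑ q ∈ Finset.range (2 ^ (K - 1 - j)),
        4 ^ (j + 1) * (16 * ∑ k ∈ Finset.range (2 * L + 1), (2 ^ k / 2 ^ L : ℝ) ^ 3 *
          GGC (fun x y => (2 ^ k / 2 ^ L : ℝ)⁻¹ * f0 x y) (fun x y => (2 ^ k / 2 ^ L : ℝ)⁻¹ * f1 x y)
            (fun x y => (2 ^ k / 2 ^ L : ℝ)⁻¹ * f2 x y) j p q) :=
    Finset.sum_le_sum fun j hj => Finset.sum_le_sum fun p hp => Finset.sum_le_sum fun q hq =>
      hL j hj p hp q hq
  refine step1.trans ?_
  have step2 : ∑ j ∈ Finset.range K, ∑ p ∈ Finset.range (2 ^ (K - 1 - j)),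
      ∑ q ∈ Finset.range (2 ^ (K - 1 - j)),
        4 ^ (j + 1) * (16 * ∑ k ∈ Finset.range (2 * L + 1), (2 ^ k / 2 ^ L : ℝ) ^ 3 *
          GGC (fun x y => (2 ^ k / 2 ^ L : ℝ)⁻¹ * f0 x y) (fun x y => (2 ^ k / 2 ^ L : ℝ)⁻¹ * f1 x y)
            (fun x y => (2 ^ k / 2 ^ L : ℝ)⁻¹ * f2 x y) j p q) =
      32 * ∑ k ∈ Finset.range (2 * L + 1), (2 ^ k / 2 ^ L : ℝ) ^ 3 *
        ∑ j ∈ Finset.range K, 4 ^ (j + 1) * (∑ p ∈ Finset.range (2 ^ (K - 1 - j)),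
          ∑ q ∈ Finset.range (2 ^ (K - 1 - j)), (1 / 2) *
          GGC (fun x y => (2 ^ k / 2 ^ L : ℝ)⁻¹ * f0 x y) (fun x y => (2 ^ k / 2 ^ L : ℝ)⁻¹ * f1 x y)
            (fun x y => (2 ^ k / 2 ^ L : ℝ)⁻¹ * f2 x y) j p q) := by
    simp only [Finset.mul_sum]
    rw [Finset.sum_comm (s := Finset.range (2 * L + 1))]
    apply Finset.sum_congr rfl; intro j _
    rw [Finset.sum_comm (s := Finset.range (2 * L + 1))]
    apply Finset.sum_congr rfl; intro p _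
    rw [Finset.sum_comm (s := Finset.range (2 * L + 1))]
    apply Finset.sum_congr rfl; intro q _
    apply Finset.sum_congr rfl; intro k _
    ring
  rw [step2]
  have step3 : ∀ k, ∑ j ∈ Finset.range K, 4 ^ (j + 1) * (∑ p ∈ Finset.range (2 ^ (K - 1 - j)),
          ∑ q ∈ Finset.range (2 ^ (K - 1 - j)), (1 / 2) *
          GGC (fun x y => (2 ^ k / 2 ^ L : ℝ)⁻¹ * f0 x y) (fun x y => (2 ^ k / 2 ^ L : ℝ)⁻¹ * f1 x y)
            (fun x y => (2 ^ k / 2 ^ L : ℝ)⁻¹ * f2 x y) j p q) ≤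
      ∑ p ∈ Finset.range (2 ^ K), ∑ q ∈ Finset.range (2 ^ K),
        (eta ((f0 p q ^ 2 + f2 (p ^^^ q) p ^ 2) / (2 ^ k / 2 ^ L) ^ 2) +
          eta ((f1 q (p ^^^ q) ^ 2 + f0 p q ^ 2) / (2 ^ k / 2 ^ L) ^ 2) +
          eta ((f2 (p ^^^ q) p ^ 2 + f1 q (p ^^^ q) ^ 2) / (2 ^ k / 2 ^ L) ^ 2)) := by
    intro k
    refine (energy _ _ _ K).trans (le_of_eq ?_)
    apply Finset.sum_congr rfl; intro p _
    apply Finset.sum_congr rfl; intro q _
    rw [PsiC_zero]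
    have e : ∀ x y l : ℝ, (l⁻¹ * x) ^ 2 + (l⁻¹ * y) ^ 2 = (x ^ 2 + y ^ 2) / l ^ 2 := by
      intro x y l
      rw [mul_pow, mul_pow, inv_pow, ← mul_add, div_eq_inv_mul]
    rw [e, e, e]
  have step4 : 32 * ∑ k ∈ Finset.range (2 * L + 1), (2 ^ k / 2 ^ L : ℝ) ^ 3 *
        ∑ j ∈ Finset.range K, 4 ^ (j + 1) * (∑ p ∈ Finset.range (2 ^ (K - 1 - j)),
          ∑ q ∈ Finset.range (2 ^ (K - 1 - j)), (1 / 2) *
          GGC (fun x y => (2 ^ k / 2 ^ L : ℝ)⁻¹ * f0 x y) (fun x y => (2 ^ k / 2 ^ L : ℝ)⁻¹ * f1 x y)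
            (fun x y => (2 ^ k / 2 ^ L : ℝ)⁻¹ * f2 x y) j p q) ≤
      32 * ∑ k ∈ Finset.range (2 * L + 1), (2 ^ k / 2 ^ L : ℝ) ^ 3 *
      ∑ p ∈ Finset.range (2 ^ K), ∑ q ∈ Finset.range (2 ^ K),
        (eta ((f0 p q ^ 2 + f2 (p ^^^ q) p ^ 2) / (2 ^ k / 2 ^ L) ^ 2) +
          eta ((f1 q (p ^^^ q) ^ 2 + f0 p q ^ 2) / (2 ^ k / 2 ^ L) ^ 2) +
          eta ((f2 (p ^^^ q) p ^ 2 + f1 q (p ^^^ q) ^ 2) / (2 ^ k / 2 ^ L) ^ 2)) := by
    apply mul_le_mul_of_nonneg_left _ (by norm_num)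
    exact Finset.sum_le_sum fun k _ => mul_le_mul_of_nonneg_left (step3 k) (by positivity)
  refine step4.trans ?_
  have step5 : 32 * ∑ k ∈ Finset.range (2 * L + 1), (2 ^ k / 2 ^ L : ℝ) ^ 3 *
      ∑ p ∈ Finset.range (2 ^ K), ∑ q ∈ Finset.range (2 ^ K),
        (eta ((f0 p q ^ 2 + f2 (p ^^^ q) p ^ 2) / (2 ^ k / 2 ^ L) ^ 2) +
          eta ((f1 q (p ^^^ q) ^ 2 + f0 p q ^ 2) / (2 ^ k / 2 ^ L) ^ 2) +
          eta ((f2 (p ^^^ q) p ^ 2 + f1 q (p ^^^ q) ^ 2) / (2 ^ k / 2 ^ L) ^ 2)) =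
      ∑ p ∈ Finset.range (2 ^ K), ∑ q ∈ Finset.range (2 ^ K), 32 *
        ((∑ k ∈ Finset.range (2 * L + 1), (2 ^ k / 2 ^ L : ℝ) ^ 3 *
          eta ((f0 p q ^ 2 + f2 (p ^^^ q) p ^ 2) / (2 ^ k / 2 ^ L) ^ 2)) +
         (∑ k ∈ Finset.range (2 * L + 1), (2 ^ k / 2 ^ L : ℝ) ^ 3 *
          eta ((f1 q (p ^^^ q) ^ 2 + f0 p q ^ 2) / (2 ^ k / 2 ^ L) ^ 2)) +
         (∑ k ∈ Finset.range (2 * L + 1), (2 ^ k / 2 ^ L : ℝ) ^ 3 *
          eta ((f2 (p ^^^ q) p ^ 2 + f1 q (p ^^^ q) ^ 2) / (2 ^ k / 2 ^ L) ^ 2))) := by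
    simp only [← Finset.sum_add_distrib, Finset.mul_sum]
    rw [Finset.sum_comm]
    apply Finset.sum_congr rfl; intro p _
    rw [Finset.sum_comm]
    apply Finset.sum_congr rfl; intro q _
    apply Finset.sum_congr rfl; intro k _
    ring
  rw [step5]
  have step6 : ∑ p ∈ Finset.range (2 ^ K), ∑ q ∈ Finset.range (2 ^ K), 32 *
        ((∑ k ∈ Finset.range (2 * L + 1), (2 ^ k / 2 ^ L : ℝ) ^ 3 *
          eta ((f0 p q ^ 2 + f2 (p ^^^ q) p ^ 2) / (2 ^ k / 2 ^ L) ^ 2)) +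
         (∑ k ∈ Finset.range (2 * L + 1), (2 ^ k / 2 ^ L : ℝ) ^ 3 *
          eta ((f1 q (p ^^^ q) ^ 2 + f0 p q ^ 2) / (2 ^ k / 2 ^ L) ^ 2)) +
         (∑ k ∈ Finset.range (2 * L + 1), (2 ^ k / 2 ^ L : ℝ) ^ 3 *
          eta ((f2 (p ^^^ q) p ^ 2 + f1 q (p ^^^ q) ^ 2) / (2 ^ k / 2 ^ L) ^ 2))) ≤
      ∑ p ∈ Finset.range (2 ^ K), ∑ q ∈ Finset.range (2 ^ K), 896 *
        (|f0 p q| ^ 3 + |f1 q (p ^^^ q)| ^ 3 + |f2 (p ^^^ q) p| ^ 3) := by
    apply Finset.sum_le_sum; intro p _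
    apply Finset.sum_le_sum; intro q _
    have b1 := eta_sum (s := f0 p q ^ 2 + f2 (p ^^^ q) p ^ 2) (by positivity) L
    have b2 := eta_sum (s := f1 q (p ^^^ q) ^ 2 + f0 p q ^ 2) (by positivity) L
    have b3 := eta_sum (s := f2 (p ^^^ q) p ^ 2 + f1 q (p ^^^ q) ^ 2) (by positivity) L
    have c1 := cube_root_bound (f0 p q) (f2 (p ^^^ q) p)
    have c2 := cube_root_bound (f1 q (p ^^^ q)) (f0 p q)
    have c3 := cube_root_bound (f2 (p ^^^ q) p) (f1 q (p ^^^ q))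
    linarith
  refine step6.trans (le_of_eq ?_)
  simp only [← Finset.mul_sum]
  congr 1
  simp only [Finset.sum_add_distrib]
  congr 1
  · congr 1
    -- f1
    rw [Finset.sum_comm]
    apply Finset.sum_congr rfl; intro q hq
    exact sum_xor K q (Finset.mem_range.1 hq) (fun t => |f1 q t| ^ 3)
  · rw [Finset.sum_comm (f := fun p q => |f2 p q| ^ 3)]
    apply Finset.sum_congr rfl; intro p hp
    have := sum_xor K p (Finset.mem_range.1 hp) (fun t => |f2 t p| ^ 3)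
    rw [← this]
    apply Finset.sum_congr rfl; intro q _
    rw [Nat.xor_comm]

end P075
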