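import Vale.Agent.P075.Bound

/-! The final bound. -/

open MeasureTheory Set

namespace P075

variable {F0 F1 F2 : ℝ × ℝ → ℝ}

theorem abs3_integrable {F : ℝ × ℝ → ℝ} (h : Adm F) : Integrable fun x => |F x| ^ 3 := by
  obtain ⟨M, hM⟩ := abs3_bdd h
  have h1 : IntegrableOn (fun x => |F x| ^ 3) (tsupport F) :=
    integrableOn2 (abs3_meas h) hM h.2.2.isCompact.measure_lt_top.ne
  refine (integrableOn_iff_integrable_of_support_subset ?_).1 h1
  intro x hx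
  apply subset_tsupport F
  intro h0
  apply hx
  show |F x| ^ 3 = 0
  rw [h0]
  simp

/-- The cube of the norm. -/
noncomputable def I3 (F : ℝ × ℝ → ℝ) : ℝ := ∫ p in Set.Ici (0 : ℝ) ×ˢ Set.Ici (0 : ℝ), |F p| ^ 3

theorem I3_nonneg (F : ℝ × ℝ → ℝ) : 0 ≤ I3 F :=
  integral_nonneg fun _ => by positivity

theorem le_I3 {F : ℝ × ℝ → ℝ} (h : Adm F) (d : ℝ) :
    ∫ x in Iv d 0 ×ˢ Iv d 0, |F x| ^ 3 ≤ I3 F := by
  unfold I3
  apply setIntegral_mono_set (abs3_integrable h).integrableOn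
  · exact Filter.Eventually.of_forall fun x => by
      show 0 ≤ |F x| ^ 3
      positivity
  · apply Filter.Eventually.of_forall
    rintro ⟨x, y⟩ ⟨hx, hy⟩
    refine ⟨?_, ?_⟩
    · exact le_trans (by simp) hx.1
    · exact le_trans (by simp) hy.1

/-- The sum of all the absolute values of the local forms over the scales in `S`. -/
noncomputable def TT (S : Finset ℤ) (F0 F1 F2 : ℝ × ℝ → ℝ) : ℝ :=
  ∑ k ∈ S, ∑' n : Trip, |LI k n F0 F1 F2|

theorem TT_le_add (h0 : Adm F0) (h1 : Adm F1) (h2 : Adm F2) (S : Finset ℤ) :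
    TT S F0 F1 F2 ≤ 896 * (I3 F0 + I3 F1 + I3 F2) := by
  obtain ⟨R, hF⟩ := h0.supp
  obtain ⟨k0, K, hS, hR⟩ := choose_scales S R
  have hb := bound_scaled h0 h1 h2 k0 K
  have e0 := le_I3 h0 ((2:ℝ) ^ k0 * (2 ^ K : ℕ))
  have e1 := le_I3 h1 ((2:ℝ) ^ k0 * (2 ^ K : ℕ))
  have e2 := le_I3 h2 ((2:ℝ) ^ k0 * (2 ^ K : ℕ))
  have hsum : TT S F0 F1 F2 ≤ ∑ j ∈ Finset.range K, ∑ p ∈ Finset.range (2 ^ (K - 1 - j)),
      ∑ q ∈ Finset.range (2 ^ (K - 1 - j)), |LI (k0 + (j + 1)) (p, q, p ^^^ q) F0 F1 F2| := by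
    have hsub : S ⊆ (Finset.range K).image (fun j : ℕ => k0 + ((j:ℤ) + 1)) := by
      intro k hk
      obtain ⟨j, hj, rfl⟩ := hS k hk
      exact Finset.mem_image.2 ⟨j, Finset.mem_range.2 hj, rfl⟩
    have hnn : ∀ k : ℤ, 0 ≤ ∑' n : Trip, |LI k n F0 F1 F2| := fun k =>
      tsum_nonneg fun _ => abs_nonneg _
    calc TT S F0 F1 F2 ≤ ∑ k ∈ (Finset.range K).image (fun j : ℕ => k0 + ((j:ℤ) + 1)),
          ∑' n : Trip, |LI k n F0 F1 F2| :=
        Finset.sum_le_sum_of_subset_of_nonneg hsub fun k _ _ => hnn k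
      _ = ∑ j ∈ Finset.range K, ∑' n : Trip, |LI (k0 + ((j:ℤ) + 1)) n F0 F1 F2| := by
        rw [Finset.sum_image]
        intro a _ b _ hab
        have : k0 + ((a:ℤ) + 1) = k0 + ((b:ℤ) + 1) := hab
        omega
      _ = _ := by
        apply Finset.sum_congr rfl; intro j hj
        exact tsum_trip (Finset.mem_range.1 hj) hR hF
  refine le_trans hsum (le_trans hb ?_)
  linarith

theorem LI_smul (k : ℤ) (n : ℕ × ℕ × ℕ) (c0 c1 c2 : ℝ) :
    LI k n (fun x => c0 * F0 x) (fun x => c1 * F1 x) (fun x => c2 * F2 x) =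
      c0 * c1 * c2 * LI k n F0 F1 F2 := by
  unfold LI
  rw [← mul_assoc, mul_comm (c0 * c1 * c2), mul_assoc]
  congr 1
  rw [← integral_const_mul]
  apply integral_congr_ae
  apply Filter.Eventually.of_forall
  intro x
  show _ = _
  ring

theorem TT_smul (S : Finset ℤ) {c0 c1 c2 : ℝ} (h0 : 0 ≤ c0) (h1 : 0 ≤ c1) (h2 : 0 ≤ c2) :
    TT S (fun x => c0 * F0 x) (fun x => c1 * F1 x) (fun x => c2 * F2 x) =
      c0 * c1 * c2 * TT S F0 F1 F2 := by
  unfold TT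
  rw [Finset.mul_sum]
  apply Finset.sum_congr rfl; intro k _
  rw [← tsum_mul_left]
  apply tsum_congr; intro n
  rw [LI_smul, abs_mul, abs_of_nonneg (by positivity)]

theorem I3_smul (F : ℝ × ℝ → ℝ) {c : ℝ} (hc : 0 ≤ c) :
    I3 (fun x => c * F x) = c ^ 3 * I3 F := by
  unfold I3
  rw [← integral_const_mul]
  apply integral_congr_ae
  apply Filter.Eventually.of_forall
  intro x
  show |c * F x| ^ 3 = c ^ 3 * |F x| ^ 3
  rw [abs_mul, abs_of_nonneg hc]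
  ring

theorem Adm.smul {F : ℝ × ℝ → ℝ} (h : Adm F) (c : ℝ) : Adm (fun x => c * F x) := by
  obtain ⟨hm, ⟨M, hM⟩, hs⟩ := h
  refine ⟨hm.const_mul c, ⟨|c| * M, fun p => ?_⟩, ?_⟩
  · rw [abs_mul]
    exact mul_le_mul_of_nonneg_left (hM p) (abs_nonneg _)
  · exact hs.mul_left

theorem nrm3_nonneg (F : ℝ × ℝ → ℝ) : 0 ≤ nrm3 F := Real.rpow_nonneg (I3_nonneg F) _

theorem nrm3_pow (F : ℝ × ℝ → ℝ) : nrm3 F ^ 3 = I3 F := by
  have h : nrm3 F = I3 F ^ (1 / 3 : ℝ) := rfl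
  rw [h, ← Real.rpow_natCast, ← Real.rpow_mul (I3_nonneg F)]
  norm_num

theorem TT_le_eta (h0 : Adm F0) (h1 : Adm F1) (h2 : Adm F2) (S : Finset ℤ) {η : ℝ} (hη : 0 < η) :
    TT S F0 F1 F2 ≤ 2688 * ((nrm3 F0 + η) * (nrm3 F1 + η) * (nrm3 F2 + η)) := by
  have n0 := nrm3_nonneg F0
  have n1 := nrm3_nonneg F1
  have n2 := nrm3_nonneg F2
  have key : ∀ F : ℝ × ℝ → ℝ, I3 (fun x => (nrm3 F + η)⁻¹ * F x) ≤ 1 := by
    intro F
    have n := nrm3_nonneg F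
    rw [I3_smul F (by positivity), ← nrm3_pow, ← mul_pow]
    apply pow_le_one₀ (by positivity)
    rw [inv_mul_le_one₀ (by positivity)]
    linarith
  have h := TT_le_add (h0.smul (nrm3 F0 + η)⁻¹) (h1.smul (nrm3 F1 + η)⁻¹)
    (h2.smul (nrm3 F2 + η)⁻¹) S
  rw [TT_smul S (by positivity) (by positivity) (by positivity)] at h
  have h' : (nrm3 F0 + η)⁻¹ * (nrm3 F1 + η)⁻¹ * (nrm3 F2 + η)⁻¹ * TT S F0 F1 F2 ≤ 2688 := by
    refine le_trans h ?_
    have := key F0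
    have := key F1
    have := key F2
    linarith
  have hp : 0 < (nrm3 F0 + η) * (nrm3 F1 + η) * (nrm3 F2 + η) := by positivity
  have h2 : TT S F0 F1 F2 = ((nrm3 F0 + η)⁻¹ * (nrm3 F1 + η)⁻¹ * (nrm3 F2 + η)⁻¹ *
      TT S F0 F1 F2) * ((nrm3 F0 + η) * (nrm3 F1 + η) * (nrm3 F2 + η)) := by
    have a0 : nrm3 F0 + η ≠ 0 := by positivity
    have a1 : nrm3 F1 + η ≠ 0 := by positivity
    have a2 : nrm3 F2 + η ≠ 0 := by positivity
    field_simp
  rw [h2]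
  exact mul_le_mul_of_nonneg_right h' hp.le

theorem TT_le (h0 : Adm F0) (h1 : Adm F1) (h2 : Adm F2) (S : Finset ℤ) :
    TT S F0 F1 F2 ≤ 2688 * (nrm3 F0 * nrm3 F1 * nrm3 F2) := by
  have hc : Continuous fun η : ℝ => 2688 * ((nrm3 F0 + η) * (nrm3 F1 + η) * (nrm3 F2 + η)) := by
    fun_prop
  have ht := (hc.tendsto 0).mono_left (nhdsWithin_le_nhds (s := Set.Ioi 0))
  simp only [add_zero] at ht
  apply ge_of_tendsto ht
  filter_upwards [self_mem_nhdsWithin] with η hη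
  exact TT_le_eta h0 h1 h2 S hη

theorem Lam_le {S : Finset ℤ} {ε : ℤ → ℝ} (hε : ∀ k ∈ S, |ε k| ≤ 1) (h0 : Adm F0) :
    |Lam S ε F0 F1 F2| ≤ TT S F0 F1 F2 := by
  unfold Lam TT
  refine le_trans (Finset.abs_sum_le_sum_abs _ _) ?_
  apply Finset.sum_le_sum
  intro k hk
  rw [abs_mul]
  have hsm : Summable fun n : Trip => ‖LI k n F0 F1 F2‖ := by
    apply summable_of_hasFiniteSupport
    refine (finite_LI (F1 := F1) (F2 := F2) h0 k).subset ?_
    intro n hn hz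
    apply hn
    show ‖LI k n F0 F1 F2‖ = 0
    rw [hz, norm_zero]
  have h2 : |∑' n : Trip, LI k n F0 F1 F2| ≤ ∑' n : Trip, |LI k n F0 F1 F2| := by
    have := norm_tsum_le_tsum_norm hsm
    simpa [Real.norm_eq_abs] using this
  calc |ε k| * |∑' n : Trip, LI k n F0 F1 F2| ≤ 1 * |∑' n : Trip, LI k n F0 F1 F2| :=
        mul_le_mul_of_nonneg_right (hε k hk) (abs_nonneg _)
    _ ≤ _ := by rw [one_mul]; exact h2

end P075
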