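import Vale.Agent.P075.Slice

/-! The slice formula for the local forms. -/

open MeasureTheory Set

namespace P075

theorem Adm.meas {F : ℝ × ℝ → ℝ} (h : Adm F) : Measurable F := h.1

theorem meas_pair {F : ℝ × ℝ → ℝ} (h : Measurable F) {f g : ℝ × ℝ × ℝ → ℝ} (hf : Measurable f)
    (hg : Measurable g) : Measurable fun x => F (f x, g x) := h.comp (hf.prodMk hg)

theorem abs_mul3_le {a b c A B C : ℝ} (ha : |a| ≤ A) (hb : |b| ≤ B) (hc : |c| ≤ C) :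
    |a * b * c| ≤ A * B * C := by
  have hA : 0 ≤ A := le_trans (abs_nonneg _) ha
  have hB : 0 ≤ B := le_trans (abs_nonneg _) hb
  rw [abs_mul, abs_mul]
  exact mul_le_mul (mul_le_mul ha hb (abs_nonneg _) hA) hc (abs_nonneg _) (mul_nonneg hA hB)

theorem LI_integrand_integrable (k : ℤ) (n : ℕ × ℕ × ℕ) {F0 F1 F2 : ℝ × ℝ → ℝ} (h0 : Adm F0)
    (h1 : Adm F1) (h2 : Adm F2) {s : Set (ℝ × ℝ × ℝ)} (hs : volume s ≠ ⊤) :
    IntegrableOn (fun x : ℝ × ℝ × ℝ => F0 (x.1, x.2.1) * F1 (x.2.1, x.2.2) * F2 (x.2.2, x.1) *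
      (haar k n.1 x.1 * haar k n.2.1 x.2.1 * haar k n.2.2 x.2.2)) s := by
  obtain ⟨m0, ⟨M0, b0⟩, -⟩ := h0
  obtain ⟨m1, ⟨M1, b1⟩, -⟩ := h1
  obtain ⟨m2, ⟨M2, b2⟩, -⟩ := h2
  have hx : Measurable fun x : ℝ × ℝ × ℝ => x.1 := measurable_fst
  have hy : Measurable fun x : ℝ × ℝ × ℝ => x.2.1 := measurable_fst.comp measurable_snd
  have hz : Measurable fun x : ℝ × ℝ × ℝ => x.2.2 := measurable_snd.comp measurable_snd
  refine integrableOn3 (M := M0 * M1 * M2 * (1 * 1 * 1)) ?_ ?_ hs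
  · exact (((meas_pair m0 hx hy).mul (meas_pair m1 hy hz)).mul (meas_pair m2 hz hx)).mul
      ((((haar_measurable _ _).comp hx).mul ((haar_measurable _ _).comp hy)).mul
        ((haar_measurable _ _).comp hz))
  · intro x
    rw [abs_mul]
    refine mul_le_mul (abs_mul3_le (b0 _) (b1 _) (b2 _))
      (abs_mul3_le (haar_bound _ _ _) (haar_bound _ _ _) (haar_bound _ _ _)) (abs_nonneg _) ?_
    have : 0 ≤ M0 := le_trans (abs_nonneg _) (b0 (0, 0))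
    have : 0 ≤ M1 := le_trans (abs_nonneg _) (b1 (0, 0))
    have : 0 ≤ M2 := le_trans (abs_nonneg _) (b2 (0, 0))
    positivity

theorem prod_integrable {F0 F1 F2 : ℝ × ℝ → ℝ} (h0 : Adm F0) (h1 : Adm F1) (h2 : Adm F2)
    (d : ℝ) (i j l : ℕ) {s : Set (ℝ × ℝ × ℝ)} (hs : volume s ≠ ⊤) :
    IntegrableOn (fun u : ℝ × ℝ × ℝ => s0 F0 d u i j * s1 F1 d u j l * s2 F2 d u l i) s := by
  obtain ⟨m0, ⟨M0, b0⟩, -⟩ := h0
  obtain ⟨m1, ⟨M1, b1⟩, -⟩ := h1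
  obtain ⟨m2, ⟨M2, b2⟩, -⟩ := h2
  have hx : Measurable fun x : ℝ × ℝ × ℝ => x.1 := measurable_fst
  have hy : Measurable fun x : ℝ × ℝ × ℝ => x.2.1 := measurable_fst.comp measurable_snd
  have hz : Measurable fun x : ℝ × ℝ × ℝ => x.2.2 := measurable_snd.comp measurable_snd
  refine integrableOn3 (M := M0 * M1 * M2) ?_ ?_ hs
  · exact ((meas_pair m0 (hx.add_const _) (hy.add_const _)).mul
      (meas_pair m1 (hy.add_const _) (hz.add_const _))).mul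
      (meas_pair m2 (hz.add_const _) (hx.add_const _))
  · intro x
    exact abs_mul3_le (b0 _) (b1 _) (b2 _)

theorem slice (k0 : ℤ) (j p q : ℕ) {F0 F1 F2 : ℝ × ℝ → ℝ} (h0 : Adm F0) (h1 : Adm F1)
    (h2 : Adm F2) :
    LI (k0 + (j + 1)) (p, q, p ^^^ q) F0 F1 F2 =
      ((2:ℝ) ^ k0)⁻¹ * ∫ u in QQ ((2:ℝ) ^ k0),
        cube (s0 F0 (2 ^ k0) u) (s1 F1 (2 ^ k0) u) (s2 F2 (2 ^ k0) u) j p q := by
  have hd : (0:ℝ) < 2 ^ k0 := by positivity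
  have hN : 0 < 2 ^ (j + 1) := by positivity
  unfold LI
  simp only [dyad_eq]
  rw [cube_decomp hd hN p q (p ^^^ q) _ (by
    have h := LI_integrand_integrable (k0 + (j + 1)) (p, q, p ^^^ q) h0 h1 h2
      (s := Iv ((2:ℝ) ^ k0 * (2 ^ (j + 1) : ℕ)) p ×ˢ Iv ((2:ℝ) ^ k0 * (2 ^ (j + 1) : ℕ)) q ×ˢ
        Iv ((2:ℝ) ^ k0 * (2 ^ (j + 1) : ℕ)) (p ^^^ q)) (vol3_ne _ _ _ _ _ _)
    exact h)]
  have hsc : (2:ℝ) ^ (-(k0 + ((j:ℤ) + 1))) = ((2:ℝ) ^ k0)⁻¹ * (1 / 2 ^ (j + 1)) := by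
    rw [zpow_neg, zpow_add₀ (by norm_num), mul_inv, one_div]
    congr 2
  rw [hsc, mul_assoc]
  congr 1
  unfold cube
  rw [integral_const_mul]
  congr 1
  have hint : ∀ a b c : ℕ, IntegrableOn (fun u : ℝ × ℝ × ℝ =>
      s0 F0 (2 ^ k0) u (2 ^ (j + 1) * p + a) (2 ^ (j + 1) * q + b) *
      s1 F1 (2 ^ k0) u (2 ^ (j + 1) * q + b) (2 ^ (j + 1) * (p ^^^ q) + c) *
      s2 F2 (2 ^ k0) u (2 ^ (j + 1) * (p ^^^ q) + c) (2 ^ (j + 1) * p + a) *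
      ((if a < 2 ^ j then 1 else -1) * (if b < 2 ^ j then 1 else -1) *
        (if c < 2 ^ j then 1 else -1))) (QQ ((2:ℝ) ^ k0)) := by
    intro a b c
    apply Integrable.mul_const
    have := prod_integrable h0 h1 h2 ((2:ℝ) ^ k0) (2 ^ (j + 1) * p + a) (2 ^ (j + 1) * q + b)
      (2 ^ (j + 1) * (p ^^^ q) + c) (s := QQ ((2:ℝ) ^ k0)) (vol3_ne _ _ _ _ _ _)
    exact this
  rw [integral_finsetSum _ (fun a _ => integrable_finsetSum _ fun b _ =>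
    integrable_finsetSum _ fun c _ => hint a b c)]
  apply Finset.sum_congr rfl; intro a ha
  rw [integral_finsetSum _ (fun b _ => integrable_finsetSum _ fun c _ => hint a b c)]
  apply Finset.sum_congr rfl; intro b hb
  rw [integral_finsetSum _ (fun c _ => hint a b c)]
  apply Finset.sum_congr rfl; intro c hc
  apply setIntegral_congr_fun (measurableSet_QQ _)
  intro u hu
  obtain ⟨hu0, hu1, hu2⟩ := hu
  rw [Finset.mem_range] at ha hb hc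
  show _ * _ * _ * (haar _ _ _ * haar _ _ _ * haar _ _ _) = _
  rw [haar_cell k0 j p a ha hu0, haar_cell k0 j q b hb hu1, haar_cell k0 j (p ^^^ q) c hc hu2]
  rfl

end P075
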