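import Mathlib

/-! Log-determinant inequalities for real positive semidefinite matrices. -/

open Matrix

namespace P075

variable {n : Type*} [Fintype n] [DecidableEq n]

open scoped MatrixOrder in
theorem exists_factor {P : Matrix n n ℝ} (hP : P.PosSemidef) :
    ∃ B : Matrix n n ℝ, P = Bᴴ * B := by
  obtain ⟨B, hB⟩ := CStarAlgebra.nonneg_iff_eq_star_mul_self.mp hP.nonneg
  exact ⟨B, hB⟩

theorem trace_mul_nonneg {A B : Matrix n n ℝ} (hA : A.PosSemidef) (hB : B.PosSemidef) :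
    0 ≤ (A * B).trace := by
  obtain ⟨C, rfl⟩ := exists_factor hA
  rw [Matrix.mul_assoc, Matrix.trace_mul_comm]
  exact (hB.mul_mul_conjTranspose_same C).trace_nonneg

theorem trace_mul_mono {A A' B B' : Matrix n n ℝ} (hA : A.PosSemidef) (hA' : (A' - A).PosSemidef)
    (hB' : B'.PosSemidef) (hB : (B' - B).PosSemidef) :
    (A * B).trace ≤ (A' * B').trace := by
  have h1 := trace_mul_nonneg hA' hB'
  have h2 := trace_mul_nonneg hA hB
  rw [Matrix.sub_mul, Matrix.trace_sub] at h1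
  rw [Matrix.mul_sub, Matrix.trace_sub] at h2
  linarith

/-- `log det W ≤ Tr W - n`. -/
theorem logdet_le_trace {W : Matrix n n ℝ} (hW : W.PosDef) :
    Real.log W.det ≤ W.trace - Fintype.card n := by
  have hdet : W.det = ∏ i, hW.1.eigenvalues i := by
    simpa using hW.1.det_eq_prod_eigenvalues
  have htr : W.trace = ∑ i, hW.1.eigenvalues i := by
    simpa using hW.1.trace_eq_sum_eigenvalues
  have hpos : ∀ i, 0 < hW.1.eigenvalues i := hW.eigenvalues_pos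
  rw [hdet, htr, Real.log_prod (fun i _ => (hpos i).ne')]
  calc ∑ i, Real.log (hW.1.eigenvalues i) ≤ ∑ i, (hW.1.eigenvalues i - 1) :=
        Finset.sum_le_sum fun i _ => Real.log_le_sub_one_of_pos (hpos i)
    _ = ∑ i, hW.1.eigenvalues i - Fintype.card n := by
        rw [Finset.sum_sub_distrib]; simp

/-- Tangent inequality for the concave function `log det`. -/
theorem logdet_tangent {X Z : Matrix n n ℝ} (hX : X.PosDef) (hZ : Z.PosDef) :
    Real.log X.det ≤ Real.log Z.det + (Z⁻¹ * (X - Z)).trace := by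
  obtain ⟨C, hC⟩ := exists_factor hZ.posSemidef
  have hZu : IsUnit Z.det := (Matrix.isUnit_iff_isUnit_det Z).1 hZ.isUnit
  have hdet : Z.det = C.det * C.det := by
    rw [hC, det_mul, det_conjTranspose]; simp
  have hCdet : C.det ≠ 0 := by
    intro h
    rw [hdet, h] at hZu
    simp at hZu
  have hCu : IsUnit C.det := isUnit_iff_ne_zero.2 hCdet
  have hCC : C * C⁻¹ = 1 := Matrix.mul_nonsing_inv C hCu
  have hCC' : C⁻¹ * C = 1 := Matrix.nonsing_inv_mul C hCu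
  have hW : ((C⁻¹)ᴴ * X * C⁻¹).PosDef := by
    apply hX.conjTranspose_mul_mul_same
    intro x y hxy
    have : C *ᵥ (C⁻¹ *ᵥ x) = C *ᵥ (C⁻¹ *ᵥ y) := by rw [hxy]
    simpa [Matrix.mulVec_mulVec, hCC] using this
  have h1 := logdet_le_trace hW
  have hdetW : ((C⁻¹)ᴴ * X * C⁻¹).det = X.det / Z.det := by
    rw [det_mul, det_mul, det_conjTranspose, Matrix.det_nonsing_inv, hdet]
    simp
    field_simp
  have hZinv : Z⁻¹ = C⁻¹ * (C⁻¹)ᴴ := by
    apply Matrix.inv_eq_left_inv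
    rw [hC]
    have : (C⁻¹)ᴴ * Cᴴ = 1 := by
      rw [← conjTranspose_mul, hCC, conjTranspose_one]
    calc C⁻¹ * (C⁻¹)ᴴ * (Cᴴ * C) = C⁻¹ * ((C⁻¹)ᴴ * Cᴴ) * C := by
          simp only [Matrix.mul_assoc]
      _ = 1 := by rw [this, Matrix.mul_one, hCC']
  have htrW : ((C⁻¹)ᴴ * X * C⁻¹).trace = (Z⁻¹ * X).trace := by
    rw [hZinv, Matrix.mul_assoc, Matrix.trace_mul_comm]
    rw [Matrix.mul_assoc, Matrix.trace_mul_comm, Matrix.mul_assoc]
  have hXp : 0 < X.det := hX.det_pos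
  have hZp : 0 < Z.det := hZ.det_pos
  rw [hdetW, htrW, Real.log_div hXp.ne' hZp.ne'] at h1
  have h2 : (Z⁻¹ * (X - Z)).trace = (Z⁻¹ * X).trace - Fintype.card n := by
    rw [Matrix.mul_sub, Matrix.trace_sub, Matrix.nonsing_inv_mul Z hZu, Matrix.trace_one]
  rw [h2]
  linarith

theorem posDef_one_add {P : Matrix n n ℝ} (hP : P.PosSemidef) : (1 + P).PosDef :=
  Matrix.PosDef.one.add_posSemidef hP

/-- Concavity of `log det` at a midpoint. -/
theorem logdet_midpoint {X Y : Matrix n n ℝ} (hX : X.PosDef) (hY : Y.PosDef) :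
    Real.log X.det + Real.log Y.det ≤ 2 * Real.log ((2⁻¹ : ℝ) • (X + Y)).det := by
  set Z : Matrix n n ℝ := (2⁻¹ : ℝ) • (X + Y) with hZ
  have hZp : Z.PosDef := (hX.add hY).smul (by norm_num)
  have h1 := logdet_tangent hX hZp
  have h2 := logdet_tangent hY hZp
  have h3 : (Z⁻¹ * (X - Z)).trace + (Z⁻¹ * (Y - Z)).trace = 0 := by
    rw [← Matrix.trace_add, ← Matrix.mul_add]
    have : X - Z + (Y - Z) = 0 := by
      have : X + Y = (2:ℝ) • Z := by
        rw [hZ, smul_smul]; norm_num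
      calc X - Z + (Y - Z) = X + Y - (2:ℝ) • Z := by
            rw [two_smul]; abel
        _ = 0 := by rw [this]; simp
    rw [this]; simp
  linarith

/-- The operator function `P ↦ P (1+P)⁻¹`. -/
noncomputable def gg (P : Matrix n n ℝ) : Matrix n n ℝ := 1 - (1 + P)⁻¹

theorem inv_antitone {X Y : Matrix n n ℝ} (hX : X.PosDef) (hXY : (Y - X).PosSemidef) :
    (X⁻¹ - Y⁻¹).PosSemidef := by
  have hY : Y.PosDef := by
    have : Y = X + (Y - X) := by abel
    rw [this]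
    exact hX.add_posSemidef hXY
  have hXu : IsUnit X.det := (Matrix.isUnit_iff_isUnit_det X).1 hX.isUnit
  have hYu : IsUnit Y.det := (Matrix.isUnit_iff_isUnit_det Y).1 hY.isUnit
  have e1 : X⁻¹ * X = 1 := Matrix.nonsing_inv_mul X hXu
  have e2 : X * X⁻¹ = 1 := Matrix.mul_nonsing_inv X hXu
  have e3 : Y⁻¹ * Y = 1 := Matrix.nonsing_inv_mul Y hYu
  have e4 : Y * Y⁻¹ = 1 := Matrix.mul_nonsing_inv Y hYu
  set H := Y - X with hH
  have key : X⁻¹ - Y⁻¹ = Y⁻¹ * H * Y⁻¹ + (H * Y⁻¹)ᴴ * X⁻¹ * (H * Y⁻¹) := by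
    have hHh : Hᴴ = H := hXY.1
    have hYh : (Y⁻¹)ᴴ = Y⁻¹ := hY.inv.1
    rw [conjTranspose_mul, hHh, hYh]
    have h1 : X⁻¹ * H * Y⁻¹ = X⁻¹ - Y⁻¹ := by
      rw [hH, Matrix.mul_sub, e1, Matrix.sub_mul, Matrix.mul_assoc, e4, Matrix.mul_one,
        Matrix.one_mul]
    have h2 : Y⁻¹ * H * X⁻¹ = X⁻¹ - Y⁻¹ := by
      rw [hH, Matrix.mul_sub, e3, Matrix.sub_mul, Matrix.mul_assoc, e2, Matrix.mul_one,
        Matrix.one_mul]
    calc X⁻¹ - Y⁻¹ = Y⁻¹ * H * X⁻¹ := h2.symm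
      _ = Y⁻¹ * H * (Y⁻¹ + (X⁻¹ - Y⁻¹)) := by rw [add_sub_cancel]
      _ = Y⁻¹ * H * Y⁻¹ + Y⁻¹ * H * (X⁻¹ * H * Y⁻¹) := by rw [h1, Matrix.mul_add]
      _ = _ := by simp only [Matrix.mul_assoc]
  rw [key]
  apply Matrix.PosSemidef.add
  · have := hXY.conjTranspose_mul_mul_same (Y⁻¹)
    rwa [hY.inv.1.eq] at this
  · exact hX.inv.posSemidef.conjTranspose_mul_mul_same _

theorem gg_mono {A P : Matrix n n ℝ} (hA : A.PosSemidef) (hAP : (P - A).PosSemidef) :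
    (gg P - gg A).PosSemidef := by
  have h := inv_antitone (X := 1 + A) (Y := 1 + P) (posDef_one_add hA) (by simpa using hAP)
  have e : gg P - gg A = (1 + A)⁻¹ - (1 + P)⁻¹ := by
    unfold gg; abel
  rw [e]; exact h

theorem gg_posSemidef {P : Matrix n n ℝ} (hP : P.PosSemidef) : (gg P).PosSemidef := by
  have h := gg_mono (A := (0 : Matrix n n ℝ)) Matrix.PosSemidef.zero (P := P) (by simpa using hP)
  have e : gg (0 : Matrix n n ℝ) = 0 := by unfold gg; simp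
  rw [e, sub_zero] at h
  exact h

/-- Strong superadditivity: `log det (1+P+Q) + Tr g(P) g(Q) ≤ log det (1+P) + log det (1+Q)`. -/
theorem logdet_interaction {P Q : Matrix n n ℝ} (hP : P.PosSemidef) (hQ : Q.PosSemidef) :
    Real.log (1 + (P + Q)).det + (gg P * gg Q).trace ≤
      Real.log (1 + P).det + Real.log (1 + Q).det := by
  obtain ⟨B, hB⟩ := exists_factor hQ
  have hPd := posDef_one_add hP
  have hPu : IsUnit (1 + P).det := (Matrix.isUnit_iff_isUnit_det _).1 hPd.isUnit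
  have hBB : (B * Bᴴ).PosSemidef := posSemidef_self_mul_conjTranspose B
  have hXd := posDef_one_add hBB
  have hXu : IsUnit (1 + B * Bᴴ).det := (Matrix.isUnit_iff_isUnit_det _).1 hXd.isUnit
  have hQd := posDef_one_add hQ
  have hQu : IsUnit (1 + Q).det := (Matrix.isUnit_iff_isUnit_det _).1 hQd.isUnit
  have hY1 : (B * (1 + P)⁻¹ * Bᴴ).PosSemidef := hPd.inv.posSemidef.mul_mul_conjTranspose_same B
  have hYd := posDef_one_add hY1
  have d1 : (1 + (P + Q)).det = (1 + P).det * (1 + B * (1 + P)⁻¹ * Bᴴ).det := by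
    have : 1 + (P + Q) = (1 + P) * (1 + ((1 + P)⁻¹ * Bᴴ) * B) := by
      rw [Matrix.mul_add, Matrix.mul_one, ← Matrix.mul_assoc, ← Matrix.mul_assoc,
        Matrix.mul_nonsing_inv _ hPu, Matrix.one_mul, ← hB]
      abel
    rw [this, det_mul, det_one_add_mul_comm, ← Matrix.mul_assoc]
  have d2 : (1 + B * Bᴴ).det = (1 + Q).det := by
    rw [det_one_add_mul_comm, ← hB]
  have h1 := logdet_tangent hYd hXd
  have e1 : (1 + B * (1 + P)⁻¹ * Bᴴ) - (1 + B * Bᴴ) = - (B * gg P * Bᴴ) := by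
    unfold gg
    rw [Matrix.mul_sub, Matrix.sub_mul, Matrix.mul_one]
    abel
  have push : Bᴴ * (1 + B * Bᴴ)⁻¹ * B = gg Q := by
    have h3 : (1 + Q) * Bᴴ = Bᴴ * (1 + B * Bᴴ) := by
      rw [Matrix.add_mul, Matrix.mul_add, Matrix.one_mul, Matrix.mul_one, hB, Matrix.mul_assoc]
    have h4 : Bᴴ * (1 + B * Bᴴ)⁻¹ = (1 + Q)⁻¹ * Bᴴ := by
      calc Bᴴ * (1 + B * Bᴴ)⁻¹ = (1 + Q)⁻¹ * ((1 + Q) * Bᴴ) * (1 + B * Bᴴ)⁻¹ := by
            rw [← Matrix.mul_assoc, Matrix.nonsing_inv_mul _ hQu, Matrix.one_mul]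
        _ = (1 + Q)⁻¹ * Bᴴ * ((1 + B * Bᴴ) * (1 + B * Bᴴ)⁻¹) := by
            rw [h3]; simp only [Matrix.mul_assoc]
        _ = _ := by rw [Matrix.mul_nonsing_inv _ hXu, Matrix.mul_one]
    rw [h4, Matrix.mul_assoc, ← hB]
    unfold gg
    have : (1 + Q)⁻¹ * Q = (1 + Q)⁻¹ * ((1 + Q) - 1) := by congr 1; abel
    rw [this, Matrix.mul_sub, Matrix.nonsing_inv_mul _ hQu, Matrix.mul_one]
  have e2 : ((1 + B * Bᴴ)⁻¹ * (-(B * gg P * Bᴴ))).trace = - (gg P * gg Q).trace := by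
    rw [Matrix.mul_neg, Matrix.trace_neg, ← push]
    congr 1
    rw [← Matrix.mul_assoc, Matrix.trace_mul_comm]
    rw [← Matrix.mul_assoc, ← Matrix.mul_assoc, Matrix.trace_mul_comm]
  rw [e1, e2] at h1
  have hp1 : 0 < (1 + P).det := hPd.det_pos
  have hp2 : 0 < (1 + B * (1 + P)⁻¹ * Bᴴ).det := hYd.det_pos
  rw [d1, Real.log_mul hp1.ne' hp2.ne', ← d2]
  linarith

end P075
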