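import Vale.Agent.P075.Discrete

/-! Decomposition of integrals over dyadic cubes into translates of a small cube. -/

open MeasureTheory Set

namespace P075

/-- Half-open interval of length `d` with index `m`. -/
def Iv (d : ℝ) (m : ℕ) : Set ℝ := Set.Ico (d * m) (d * (m + 1))

theorem mem_Iv_iff {d : ℝ} (hd : 0 < d) {m : ℕ} {x : ℝ} (hx : 0 ≤ x) :
    x ∈ Iv d m ↔ ⌊x / d⌋₊ = m := by
  rw [Nat.floor_eq_iff (by positivity)]
  unfold Iv
  rw [Set.mem_Ico, le_div_iff₀ hd, div_lt_iff₀ hd, mul_comm d, mul_comm d]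

theorem Iv_nonneg {d : ℝ} (hd : 0 < d) {m : ℕ} {x : ℝ} (hx : x ∈ Iv d m) : 0 ≤ x :=
  le_trans (by positivity) hx.1

theorem Iv_disjoint {d : ℝ} (hd : 0 < d) {m m' : ℕ} (h : m ≠ m') : Disjoint (Iv d m) (Iv d m') := by
  rw [Set.disjoint_left]
  intro x hx hx'
  have h0 := Iv_nonneg hd hx
  rw [mem_Iv_iff hd h0] at hx hx'
  exact h (hx.symm.trans hx')

theorem Iv_union {d : ℝ} (hd : 0 < d) {N : ℕ} (hN : 0 < N) (p : ℕ) :
    Iv (d * N) p = ⋃ a ∈ Finset.range N, Iv d (N * p + a) := by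
  have hN' : (0:ℝ) < N := by exact_mod_cast hN
  ext x
  simp only [Set.mem_iUnion, Finset.mem_range, exists_prop]
  constructor
  · intro hx
    have h0 : 0 ≤ x := Iv_nonneg (by positivity) hx
    obtain ⟨h1, h2⟩ := hx
    set m := ⌊x / d⌋₊ with hm
    have hx1 : x ∈ Iv d m := (mem_Iv_iff hd h0).2 rfl
    obtain ⟨h3, h4⟩ := hx1
    have h5 : N * p ≤ m := by
      have : ((N * p : ℕ) : ℝ) < (m + 1 : ℕ) := by
        push_cast
        have : d * (N * p) < d * (m + 1) := by
          calc d * (N * p) = d * N * p := by ring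
            _ ≤ x := h1
            _ < _ := h4
        exact lt_of_mul_lt_mul_left this hd.le
      exact Nat.lt_succ_iff.1 (by exact_mod_cast this)
    have h6 : m < N * p + N := by
      have : (m : ℝ) < ((N * p + N : ℕ) : ℝ) := by
        push_cast
        have : d * m < d * (N * p + N) := by
          calc d * m ≤ x := h3
            _ < d * N * (p + 1) := h2
            _ = _ := by ring
        exact lt_of_mul_lt_mul_left this hd.le
      exact_mod_cast this
    refine ⟨m - N * p, by omega, ?_⟩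
    rw [Nat.add_sub_cancel' h5]
    exact ⟨h3, h4⟩
  · rintro ⟨a, ha, h1, h2⟩
    have ha' : (a : ℝ) + 1 ≤ N := by exact_mod_cast ha
    have ha0 : (0:ℝ) ≤ a := Nat.cast_nonneg a
    push_cast at h1 h2
    constructor
    · calc d * N * p = d * (N * p) := by ring
        _ ≤ d * (N * p + a) := by
            apply mul_le_mul_of_nonneg_left _ hd.le
            linarith
        _ ≤ x := h1
    · calc x < d * (N * p + a + 1) := h2
        _ ≤ d * (N * p + N) := by
            apply mul_le_mul_of_nonneg_left _ hd.le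
            linarith
        _ = d * N * (p + 1) := by ring

theorem measurableSet_Iv (d : ℝ) (m : ℕ) : MeasurableSet (Iv d m) := measurableSet_Ico

/-- Decomposition of a cube into cells. -/
theorem cube_decomp {d : ℝ} (hd : 0 < d) {N : ℕ} (hN : 0 < N) (p q r : ℕ)
    (g : ℝ × ℝ × ℝ → ℝ)
    (hg : IntegrableOn g (Iv (d * N) p ×ˢ Iv (d * N) q ×ˢ Iv (d * N) r)) :
    ∫ x in Iv (d * N) p ×ˢ Iv (d * N) q ×ˢ Iv (d * N) r, g x =
      ∑ a ∈ Finset.range N, ∑ b ∈ Finset.range N, ∑ c ∈ Finset.range N,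
        ∫ u in Iv d 0 ×ˢ Iv d 0 ×ˢ Iv d 0,
          g (u.1 + d * (N * p + a : ℕ), u.2.1 + d * (N * q + b : ℕ), u.2.2 + d * (N * r + c : ℕ)) := by
  have hset : Iv (d * N) p ×ˢ Iv (d * N) q ×ˢ Iv (d * N) r =
      ⋃ t ∈ Finset.range N ×ˢ Finset.range N ×ˢ Finset.range N,
        Iv d (N * p + t.1) ×ˢ Iv d (N * q + t.2.1) ×ˢ Iv d (N * r + t.2.2) := by
    ext ⟨x, y, z⟩
    rw [Iv_union hd hN p, Iv_union hd hN q, Iv_union hd hN r]
    simp only [Set.mem_prod, Set.mem_iUnion, Finset.mem_product, Prod.exists, exists_prop]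
    constructor
    · rintro ⟨⟨a, ha, hx⟩, ⟨b, hb, hy⟩, ⟨c, hc, hz⟩⟩
      exact ⟨a, b, c, ⟨ha, hb, hc⟩, hx, hy, hz⟩
    · rintro ⟨a, b, c, ⟨ha, hb, hc⟩, hx, hy, hz⟩
      exact ⟨⟨a, ha, hx⟩, ⟨b, hb, hy⟩, ⟨c, hc, hz⟩⟩
  have hsub : ∀ t ∈ Finset.range N ×ˢ Finset.range N ×ˢ Finset.range N,
      Iv d (N * p + t.1) ×ˢ Iv d (N * q + t.2.1) ×ˢ Iv d (N * r + t.2.2) ⊆
        Iv (d * N) p ×ˢ Iv (d * N) q ×ˢ Iv (d * N) r := by
    intro t ht
    rw [hset]
    exact Set.subset_biUnion_of_mem (u := fun t : ℕ × ℕ × ℕ =>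
      Iv d (N * p + t.1) ×ˢ Iv d (N * q + t.2.1) ×ˢ Iv d (N * r + t.2.2)) ht
  rw [show (∫ x in Iv (d * N) p ×ˢ Iv (d * N) q ×ˢ Iv (d * N) r, g x) =
    ∫ x in (⋃ t ∈ Finset.range N ×ˢ Finset.range N ×ˢ Finset.range N,
        Iv d (N * p + t.1) ×ˢ Iv d (N * q + t.2.1) ×ˢ Iv d (N * r + t.2.2)), g x by rw [← hset]]
  rw [integral_biUnion_finset]
  · rw [Finset.sum_product]
    apply Finset.sum_congr rfl; intro a _
    rw [Finset.sum_product]
    apply Finset.sum_congr rfl; intro b _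
    apply Finset.sum_congr rfl; intro c _
    have hmp : MeasurePreserving
        (Prod.map (fun x : ℝ => x + d * (N * p + a : ℕ))
          (Prod.map (fun x : ℝ => x + d * (N * q + b : ℕ)) (fun x : ℝ => x + d * (N * r + c : ℕ))))
        (volume : Measure (ℝ × ℝ × ℝ)) (volume : Measure (ℝ × ℝ × ℝ)) :=
      (measurePreserving_add_right volume _).prod
        ((measurePreserving_add_right volume _).prod (measurePreserving_add_right volume _))
    have hemb : MeasurableEmbedding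
        (Prod.map (fun x : ℝ => x + d * (N * p + a : ℕ))
          (Prod.map (fun x : ℝ => x + d * (N * q + b : ℕ)) (fun x : ℝ => x + d * (N * r + c : ℕ)))) :=
      (measurableEmbedding_addRight _).prodMap
        ((measurableEmbedding_addRight _).prodMap (measurableEmbedding_addRight _))
    have h := hmp.setIntegral_preimage_emb hemb g
      (Iv d (N * p + a) ×ˢ Iv d (N * q + b) ×ˢ Iv d (N * r + c))
    rw [← h]
    have hpre : (Prod.map (fun x : ℝ => x + d * (N * p + a : ℕ))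
          (Prod.map (fun x : ℝ => x + d * (N * q + b : ℕ)) (fun x : ℝ => x + d * (N * r + c : ℕ)))) ⁻¹'
        (Iv d (N * p + a) ×ˢ Iv d (N * q + b) ×ˢ Iv d (N * r + c)) =
        Iv d 0 ×ˢ Iv d 0 ×ˢ Iv d 0 := by
      have key : ∀ (x : ℝ) (m : ℕ), x + d * m ∈ Iv d m ↔ x ∈ Iv d 0 := by
        intro x m
        unfold Iv
        simp only [Set.mem_Ico, Nat.cast_zero, mul_zero, zero_add, mul_one]
        constructor
        · rintro ⟨h1, h2⟩; constructor <;> linarith
        · rintro ⟨h1, h2⟩; constructor <;> linarith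
      ext ⟨x, y, z⟩
      simp only [Set.mem_preimage, Set.mem_prod, Prod.map_apply, key]
    rw [hpre]
    rfl
  · intro t _
    exact (measurableSet_Iv _ _).prod ((measurableSet_Iv _ _).prod (measurableSet_Iv _ _))
  · intro t _ t' _ htt'
    rw [Function.onFun, Set.disjoint_left]
    rintro ⟨x, y, z⟩ ⟨hx, hy, hz⟩ ⟨hx', hy', hz'⟩
    apply htt'
    have e1 : t.1 = t'.1 := by
      by_contra hne
      exact Set.disjoint_left.1 (Iv_disjoint hd (by omega : N * p + t.1 ≠ N * p + t'.1)) hx hx'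
    have e2 : t.2.1 = t'.2.1 := by
      by_contra hne
      exact Set.disjoint_left.1 (Iv_disjoint hd (by omega : N * q + t.2.1 ≠ N * q + t'.2.1)) hy hy'
    have e3 : t.2.2 = t'.2.2 := by
      by_contra hne
      exact Set.disjoint_left.1 (Iv_disjoint hd (by omega : N * r + t.2.2 ≠ N * r + t'.2.2)) hz hz'
    exact Prod.ext e1 (Prod.ext e2 e3)
  · intro t ht
    exact hg.mono_set (hsub t ht)

end P075
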