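import Vale.Agent.P075.Supp

/-! Integrating the sampled cubes of the three functions. -/

open MeasureTheory Set

namespace P075

theorem real_vol_Iv {d : ℝ} (hd : 0 ≤ d) : (volume : Measure ℝ).real (Iv d 0) = d := by
  unfold Iv
  rw [Measure.real, Real.volume_Ico]
  simp [hd]

theorem vol2_ne (d d' : ℝ) (p q : ℕ) :
    (volume : Measure (ℝ × ℝ)) (Iv d p ×ˢ Iv d' q) ≠ ⊤ := by
  rw [Measure.volume_eq_prod, Measure.prod_prod]
  exact (ENNReal.mul_lt_top (vol_Iv_lt _ _) (vol_Iv_lt _ _)).ne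

theorem integrableOn2 {g : ℝ × ℝ → ℝ} (hg : Measurable g) {M : ℝ} (hM : ∀ x, |g x| ≤ M)
    {s : Set (ℝ × ℝ)} (hs : volume s ≠ ⊤) : IntegrableOn g s :=
  Measure.integrableOn_of_bounded hs hg.aestronglyMeasurable
    (Filter.Eventually.of_forall fun x => by rw [Real.norm_eq_abs]; exact hM x)

variable {d : ℝ} {f : ℝ × ℝ → ℝ} {M : ℝ}

theorem fub0 (hd : 0 ≤ d) (hf : Measurable f) (hM : ∀ x, |f x| ≤ M) :
    ∫ x in QQ d, f (x.1, x.2.1) = d * ∫ x in Iv d 0 ×ˢ Iv d 0, f x := by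
  have hx : Measurable fun x : ℝ × ℝ × ℝ => x.1 := measurable_fst
  have hy : Measurable fun x : ℝ × ℝ × ℝ => x.2.1 := measurable_fst.comp measurable_snd
  unfold QQ
  rw [Measure.volume_eq_prod, setIntegral_prod _ (integrableOn3 (meas_pair hf hx hy)
    (fun x => hM _) (vol3_ne _ _ _ _ _ _)), Measure.volume_eq_prod,
    setIntegral_prod _ (integrableOn2 hf hM (vol2_ne _ _ _ _)), ← integral_const_mul]
  apply setIntegral_congr_fun (measurableSet_Iv _ _)
  intro x _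
  show ∫ y in Iv d 0 ×ˢ Iv d 0, f (x, y.1) = d * ∫ y in Iv d 0, f (x, y)
  rw [Measure.volume_eq_prod, setIntegral_prod _ (integrableOn2 (g := fun y => f (x, y.1))
    (hf.comp (measurable_const.prodMk measurable_fst)) (fun y => hM _) (vol2_ne _ _ _ _)),
    ← integral_const_mul]
  apply setIntegral_congr_fun (measurableSet_Iv _ _)
  intro y _
  show ∫ _ in Iv d 0, f (x, y) = d * f (x, y)
  rw [setIntegral_const, real_vol_Iv hd, smul_eq_mul]

theorem fub1 (hd : 0 ≤ d) (hf : Measurable f) (hM : ∀ x, |f x| ≤ M) :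
    ∫ x in QQ d, f (x.2.1, x.2.2) = d * ∫ x in Iv d 0 ×ˢ Iv d 0, f x := by
  have hy : Measurable fun x : ℝ × ℝ × ℝ => x.2.1 := measurable_fst.comp measurable_snd
  have hz : Measurable fun x : ℝ × ℝ × ℝ => x.2.2 := measurable_snd.comp measurable_snd
  unfold QQ
  rw [Measure.volume_eq_prod, setIntegral_prod _ (integrableOn3 (meas_pair hf hy hz)
    (fun x => hM _) (vol3_ne _ _ _ _ _ _))]
  show ∫ _ in Iv d 0, (∫ y in Iv d 0 ×ˢ Iv d 0, f y) = _
  rw [setIntegral_const, real_vol_Iv hd, smul_eq_mul]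

theorem fub2 (hd : 0 ≤ d) (hf : Measurable f) (hM : ∀ x, |f x| ≤ M) :
    ∫ x in QQ d, f (x.2.2, x.1) = d * ∫ x in Iv d 0 ×ˢ Iv d 0, f x := by
  have hx : Measurable fun x : ℝ × ℝ × ℝ => x.1 := measurable_fst
  have hz : Measurable fun x : ℝ × ℝ × ℝ => x.2.2 := measurable_snd.comp measurable_snd
  unfold QQ
  rw [Measure.volume_eq_prod, setIntegral_prod _ (integrableOn3 (meas_pair hf hz hx)
    (fun x => hM _) (vol3_ne _ _ _ _ _ _)), Measure.volume_eq_prod,
    ← setIntegral_prod_swap,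
    setIntegral_prod _ (integrableOn2 (g := fun z : ℝ × ℝ => f z.swap)
      (hf.comp measurable_swap) (fun _ => hM _) (vol2_ne _ _ _ _)), ← integral_const_mul]
  apply setIntegral_congr_fun (measurableSet_Iv _ _)
  intro x _
  show ∫ y in Iv d 0 ×ˢ Iv d 0, f (y.2, x) = d * ∫ y in Iv d 0, f (y, x)
  rw [Measure.volume_eq_prod, setIntegral_prod _ (integrableOn2 (g := fun y => f (y.2, x))
    (hf.comp (measurable_snd.prodMk measurable_const)) (fun y => hM _) (vol2_ne _ _ _ _))]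
  show ∫ _ in Iv d 0, (∫ y in Iv d 0, f (y, x)) = _
  rw [setIntegral_const, real_vol_Iv hd, smul_eq_mul]

theorem samp0 (hd : 0 < d) {N : ℕ} (hN : 0 < N) (hf : Measurable f) (hM : ∀ x, |f x| ≤ M) :
    ∑ a ∈ Finset.range N, ∑ b ∈ Finset.range N,
      ∫ u in QQ d, f (u.1 + d * a, u.2.1 + d * b) =
      d * ∫ x in Iv (d * N) 0 ×ˢ Iv (d * N) 0, f x := by
  have hN' : (0:ℝ) < N := by exact_mod_cast hN
  have hx : Measurable fun x : ℝ × ℝ × ℝ => x.1 := measurable_fst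
  have hy : Measurable fun x : ℝ × ℝ × ℝ => x.2.1 := measurable_fst.comp measurable_snd
  have h1 := fub0 (d := d * N) (by positivity) hf hM
  have h2 := cube_decomp hd hN 0 0 0 (fun x : ℝ × ℝ × ℝ => f (x.1, x.2.1))
    (integrableOn3 (meas_pair hf hx hy) (fun x => hM _) (vol3_ne _ _ _ _ _ _))
  unfold QQ at h1
  rw [h1] at h2
  simp only [mul_zero, zero_add, Finset.sum_const, Finset.card_range, nsmul_eq_mul,
    ← Finset.mul_sum] at h2
  have h3 : (N:ℝ) * (d * ∫ x in Iv (d * N) 0 ×ˢ Iv (d * N) 0, f x) =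
      N * ∑ a ∈ Finset.range N, ∑ b ∈ Finset.range N,
        ∫ u in QQ d, f (u.1 + d * a, u.2.1 + d * b) := by
    unfold QQ
    rw [← h2]; ring
  exact (mul_left_cancel₀ hN'.ne' h3).symm

theorem samp1 (hd : 0 < d) {N : ℕ} (hN : 0 < N) (hf : Measurable f) (hM : ∀ x, |f x| ≤ M) :
    ∑ a ∈ Finset.range N, ∑ b ∈ Finset.range N,
      ∫ u in QQ d, f (u.2.1 + d * a, u.2.2 + d * b) =
      d * ∫ x in Iv (d * N) 0 ×ˢ Iv (d * N) 0, f x := by
  have hN' : (0:ℝ) < N := by exact_mod_cast hN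
  have hy : Measurable fun x : ℝ × ℝ × ℝ => x.2.1 := measurable_fst.comp measurable_snd
  have hz : Measurable fun x : ℝ × ℝ × ℝ => x.2.2 := measurable_snd.comp measurable_snd
  have h1 := fub1 (d := d * N) (by positivity) hf hM
  have h2 := cube_decomp hd hN 0 0 0 (fun x : ℝ × ℝ × ℝ => f (x.2.1, x.2.2))
    (integrableOn3 (meas_pair hf hy hz) (fun x => hM _) (vol3_ne _ _ _ _ _ _))
  unfold QQ at h1
  rw [h1] at h2
  simp only [mul_zero, zero_add, Finset.sum_const, Finset.card_range, nsmul_eq_mul] at h2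
  have h3 : (N:ℝ) * (d * ∫ x in Iv (d * N) 0 ×ˢ Iv (d * N) 0, f x) =
      N * ∑ a ∈ Finset.range N, ∑ b ∈ Finset.range N,
        ∫ u in QQ d, f (u.2.1 + d * a, u.2.2 + d * b) := by
    unfold QQ
    rw [← h2]; ring
  exact (mul_left_cancel₀ hN'.ne' h3).symm

theorem samp2 (hd : 0 < d) {N : ℕ} (hN : 0 < N) (hf : Measurable f) (hM : ∀ x, |f x| ≤ M) :
    ∑ a ∈ Finset.range N, ∑ b ∈ Finset.range N,
      ∫ u in QQ d, f (u.2.2 + d * a, u.1 + d * b) =
      d * ∫ x in Iv (d * N) 0 ×ˢ Iv (d * N) 0, f x := by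
  have hN' : (0:ℝ) < N := by exact_mod_cast hN
  have hx : Measurable fun x : ℝ × ℝ × ℝ => x.1 := measurable_fst
  have hz : Measurable fun x : ℝ × ℝ × ℝ => x.2.2 := measurable_snd.comp measurable_snd
  have h1 := fub2 (d := d * N) (by positivity) hf hM
  have h2 := cube_decomp hd hN 0 0 0 (fun x : ℝ × ℝ × ℝ => f (x.2.2, x.1))
    (integrableOn3 (meas_pair hf hz hx) (fun x => hM _) (vol3_ne _ _ _ _ _ _))
  unfold QQ at h1
  rw [h1] at h2
  simp only [mul_zero, zero_add, Finset.sum_const, Finset.card_range, nsmul_eq_mul,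
    ← Finset.mul_sum] at h2
  have h3 : (N:ℝ) * (d * ∫ x in Iv (d * N) 0 ×ˢ Iv (d * N) 0, f x) =
      N * ∑ a ∈ Finset.range N, ∑ b ∈ Finset.range N,
        ∫ u in QQ d, f (u.2.2 + d * a, u.1 + d * b) := by
    unfold QQ
    rw [Finset.sum_comm, ← h2]; ring
  exact (mul_left_cancel₀ hN'.ne' h3).symm

end P075
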