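import Vale.Agent.P075.Meas
import Vale.Agent.P075.Defs

/-! Slicing the local forms into discrete cube sums. -/

open MeasureTheory Set

namespace P075

/-- The small cube. -/
def QQ (d : ℝ) : Set (ℝ × ℝ × ℝ) := Iv d 0 ×ˢ Iv d 0 ×ˢ Iv d 0

theorem measurableSet_QQ (d : ℝ) : MeasurableSet (QQ d) :=
  (measurableSet_Iv _ _).prod ((measurableSet_Iv _ _).prod (measurableSet_Iv _ _))

theorem vol3 (s t r : Set ℝ) : (volume : Measure (ℝ × ℝ × ℝ)) (s ×ˢ t ×ˢ r) =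
    volume s * (volume t * volume r) := by
  rw [Measure.volume_eq_prod, Measure.prod_prod, Measure.volume_eq_prod, Measure.prod_prod]

theorem vol_Iv_lt (d : ℝ) (m : ℕ) : volume (Iv d m) < ⊤ := by
  unfold Iv
  rw [Real.volume_Ico]
  exact ENNReal.ofReal_lt_top

theorem vol3_ne (d d' d'' : ℝ) (p q r : ℕ) :
    (volume : Measure (ℝ × ℝ × ℝ)) (Iv d p ×ˢ Iv d' q ×ˢ Iv d'' r) ≠ ⊤ := by
  rw [vol3]
  exact (ENNReal.mul_lt_top (vol_Iv_lt _ _) (ENNReal.mul_lt_top (vol_Iv_lt _ _)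
    (vol_Iv_lt _ _))).ne

theorem integrableOn3 {g : ℝ × ℝ × ℝ → ℝ} (hg : Measurable g) {M : ℝ} (hM : ∀ x, |g x| ≤ M)
    {s : Set (ℝ × ℝ × ℝ)} (hs : volume s ≠ ⊤) : IntegrableOn g s :=
  Measure.integrableOn_of_bounded hs hg.aestronglyMeasurable
    (Filter.Eventually.of_forall fun x => by rw [Real.norm_eq_abs]; exact hM x)

/-- The three sampled arrays. -/
def s0 (F : ℝ × ℝ → ℝ) (d : ℝ) (u : ℝ × ℝ × ℝ) : ℕ → ℕ → ℝ :=
  fun i i' => F (u.1 + d * i, u.2.1 + d * i')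
def s1 (F : ℝ × ℝ → ℝ) (d : ℝ) (u : ℝ × ℝ × ℝ) : ℕ → ℕ → ℝ :=
  fun i i' => F (u.2.1 + d * i, u.2.2 + d * i')
def s2 (F : ℝ × ℝ → ℝ) (d : ℝ) (u : ℝ × ℝ × ℝ) : ℕ → ℕ → ℝ :=
  fun i i' => F (u.2.2 + d * i, u.1 + d * i')

theorem dyad_eq (k0 : ℤ) (j p : ℕ) :
    dyad (k0 + (j + 1)) p = Iv ((2:ℝ) ^ k0 * (2 ^ (j + 1) : ℕ)) p := by
  unfold dyad Iv
  have : (2:ℝ) ^ (k0 + ((j:ℤ) + 1)) = 2 ^ k0 * ((2 ^ (j + 1) : ℕ) : ℝ) := by
    rw [zpow_add₀ (by norm_num)]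
    congr 1
    push_cast
    exact_mod_cast zpow_natCast (2:ℝ) (j + 1)
  rw [this]

theorem haar_cell (k0 : ℤ) (j p a : ℕ) (ha : a < 2 ^ (j + 1)) {u : ℝ}
    (hu : u ∈ Iv ((2:ℝ) ^ k0) 0) :
    haar (k0 + (j + 1)) p (u + (2:ℝ) ^ k0 * (2 ^ (j + 1) * p + a : ℕ)) =
      if a < 2 ^ j then 1 else -1 := by
  have hk : (2:ℝ) ^ (k0 + ((j:ℤ) + 1)) = 2 ^ k0 * (2 * 2 ^ j) := by
    rw [zpow_add₀ (by norm_num)]
    congr 1
    rw [← pow_succ']
    exact_mod_cast zpow_natCast (2:ℝ) (j + 1)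
  set d : ℝ := (2:ℝ) ^ k0 with hd
  have hdpos : 0 < d := by positivity
  obtain ⟨h1, h2⟩ := hu
  simp only [Nat.cast_zero, mul_zero, zero_add, mul_one] at h1 h2
  unfold haar
  rw [hk]
  push_cast
  have e : (2:ℝ) ^ (j + 1) = 2 * 2 ^ j := by rw [pow_succ]; ring
  rw [e]
  have haR : (a:ℝ) + 1 ≤ 2 * 2 ^ j := by
    have : a + 1 ≤ 2 ^ (j + 1) := ha
    have : ((a + 1 : ℕ) : ℝ) ≤ ((2 ^ (j + 1) : ℕ) : ℝ) := by exact_mod_cast this
    push_cast at this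
    rw [e] at this; exact this
  have ha0 : (0:ℝ) ≤ a := Nat.cast_nonneg a
  by_cases hlt : a < 2 ^ j
  · rw [if_pos hlt]
    have hlt' : (a:ℝ) + 1 ≤ 2 ^ j := by exact_mod_cast hlt
    have hx : u + d * (2 * 2 ^ j * p + a) < d * (2 * 2 ^ j) * (p + 1 / 2) := by
      have : d * ((a:ℝ) + 1) ≤ d * 2 ^ j := mul_le_mul_of_nonneg_left hlt' hdpos.le
      nlinarith
    have hy : d * (2 * 2 ^ j) * p ≤ u + d * (2 * 2 ^ j * p + a) := by
      have : 0 ≤ d * a := by positivity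
      nlinarith
    have hm : u + d * (2 * 2 ^ j * p + a) ∈
        Set.Ico (d * (2 * 2 ^ j) * p) (d * (2 * 2 ^ j) * (p + 1 / 2)) := ⟨hy, hx⟩
    rw [Set.indicator_of_mem hm, Set.indicator_of_notMem]
    · norm_num
    · intro hmem
      exact absurd hmem.1 (not_le.2 hx)
  · rw [if_neg hlt]
    push Not at hlt
    have hlt' : (2:ℝ) ^ j ≤ a := by exact_mod_cast hlt
    have hx : d * (2 * 2 ^ j) * (p + 1 / 2) ≤ u + d * (2 * 2 ^ j * p + a) := by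
      have : d * 2 ^ j ≤ d * a := mul_le_mul_of_nonneg_left hlt' hdpos.le
      nlinarith
    have hy : u + d * (2 * 2 ^ j * p + a) < d * (2 * 2 ^ j) * (p + 1) := by
      have : d * ((a:ℝ) + 1) ≤ d * (2 * 2 ^ j) := mul_le_mul_of_nonneg_left haR hdpos.le
      nlinarith
    have hm : u + d * (2 * 2 ^ j * p + a) ∈
        Set.Ico (d * (2 * 2 ^ j) * (p + 1 / 2)) (d * (2 * 2 ^ j) * (p + 1)) := ⟨hx, hy⟩
    rw [Set.indicator_of_notMem, Set.indicator_of_mem hm]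
    · norm_num
    · intro hmem
      exact absurd hmem.2 (not_lt.2 hx)

theorem haar_bound (k : ℤ) (n : ℕ) (x : ℝ) : |haar k n x| ≤ 1 := by
  unfold haar
  by_cases h1 : x ∈ Set.Ico ((2 : ℝ) ^ k * n) ((2 : ℝ) ^ k * (n + 1 / 2))
  · by_cases h2 : x ∈ Set.Ico ((2 : ℝ) ^ k * (n + 1 / 2)) ((2 : ℝ) ^ k * (n + 1))
    · rw [Set.indicator_of_mem h1, Set.indicator_of_mem h2]; simp
    · rw [Set.indicator_of_mem h1, Set.indicator_of_notMem h2]; simp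
  · by_cases h2 : x ∈ Set.Ico ((2 : ℝ) ^ k * (n + 1 / 2)) ((2 : ℝ) ^ k * (n + 1))
    · rw [Set.indicator_of_notMem h1, Set.indicator_of_mem h2]; simp
    · rw [Set.indicator_of_notMem h1, Set.indicator_of_notMem h2]; simp

theorem haar_measurable (k : ℤ) (n : ℕ) : Measurable (haar k n) := by
  unfold haar
  exact (measurable_const.indicator measurableSet_Ico).sub
    (measurable_const.indicator measurableSet_Ico)

end P075
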