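import Vale.Agent.P075.LogDet

/-! One step of the multiscale potential argument. -/

open Matrix

namespace P075

variable {ι : Type*} [Fintype ι] [DecidableEq ι]

/-- The half-size blocks put together, with the normalising factor `1/2`. -/
noncomputable def blk (e : Bool → Bool → Matrix ι ι ℝ) : Matrix (ι × Bool) (ι × Bool) ℝ :=
  fun p q => (1 / 2) * e p.2 q.2 p.1 q.1

/-- The sign of a half. -/
def sg (a : Bool) : ℝ := if a then -1 else 1

/-- The sign matrix of the two halves. -/
noncomputable def DD (ι : Type*) [DecidableEq ι] : Matrix (ι × Bool) (ι × Bool) ℝ :=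
  Matrix.diagonal fun p => sg p.2

theorem sg_mul_self (a : Bool) : sg a * sg a = 1 := by
  cases a <;> simp [sg]

theorem DD_mul_DD : DD ι * DD ι = 1 := by
  unfold DD
  rw [Matrix.diagonal_mul_diagonal]
  simp [sg_mul_self]

theorem DD_herm : (DD ι)ᴴ = DD ι := by
  unfold DD
  rw [Matrix.diagonal_conjTranspose]
  congr 1

/-- The local operator `M Mᴴ + Nᴴ N`. -/
noncomputable def PP {κ : Type*} [Fintype κ] (M N : Matrix κ κ ℝ) : Matrix κ κ ℝ :=
  M * Mᴴ + Nᴴ * N

theorem PP_posSemidef {κ : Type*} [Fintype κ] (M N : Matrix κ κ ℝ) : (PP M N).PosSemidef :=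
  (posSemidef_self_mul_conjTranspose M).add (posSemidef_conjTranspose_mul_self N)

theorem DPD_posSemidef {P : Matrix (ι × Bool) (ι × Bool) ℝ} (hP : P.PosSemidef) :
    (DD ι * P * DD ι).PosSemidef := by
  have := hP.mul_mul_conjTranspose_same (DD ι)
  rwa [DD_herm] at this

theorem det_one_add_DPD (P : Matrix (ι × Bool) (ι × Bool) ℝ) :
    (1 + DD ι * P * DD ι).det = (1 + P).det := by
  have h : 1 + DD ι * P * DD ι = DD ι * (1 + P) * DD ι := by
    rw [Matrix.mul_add, Matrix.add_mul, Matrix.mul_one, DD_mul_DD]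
  rw [h, det_mul, det_mul, mul_right_comm, ← det_mul, DD_mul_DD, det_one, one_mul]

theorem blk_conjTranspose (e : Bool → Bool → Matrix ι ι ℝ) :
    (blk e)ᴴ = blk (fun a b => (e b a)ᴴ) := by
  ext p q
  simp [blk, conjTranspose_apply]

/-- The 'folded' operator is block diagonal. -/
theorem fold_eq (e f : Bool → Bool → Matrix ι ι ℝ) :
    1 + (PP (blk e) (blk f) + DD ι * PP (blk e) (blk f) * DD ι) =
      Matrix.blockDiagonal (fun a : Bool => (2⁻¹ : ℝ) •
        ((1 + PP (e a false) (f (a ^^ false) a)) + (1 + PP (e a true) (f (a ^^ true) a)))) := by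
  ext ⟨i, a⟩ ⟨j, b⟩
  rw [Matrix.blockDiagonal_apply]
  have hD : (DD ι * PP (blk e) (blk f) * DD ι) (i, a) (j, b) =
      sg a * PP (blk e) (blk f) (i, a) (j, b) * sg b := by
    unfold DD
    rw [Matrix.mul_diagonal, Matrix.diagonal_mul]
  rw [Matrix.add_apply, Matrix.add_apply, hD]
  by_cases hab : a = b
  · subst hab
    rw [if_pos rfl]
    have h2 : PP (blk e) (blk f) (i, a) (j, a) = (1 / 4) *
        (∑ c : Bool, (e a c * (e a c)ᴴ) i j + ∑ c : Bool, ((f c a)ᴴ * f c a) i j) := by
      unfold PP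
      rw [Matrix.add_apply, Matrix.mul_apply, Matrix.mul_apply]
      simp only [Fintype.sum_prod_type, blk, Matrix.conjTranspose_apply, Matrix.mul_apply,
        star_trivial]
      rw [Finset.sum_comm, Finset.sum_comm (s := (Finset.univ : Finset ι)), mul_add,
        Finset.mul_sum, Finset.mul_sum]
      congr 1
      · apply Finset.sum_congr rfl; intro c _
        rw [Finset.mul_sum]
        apply Finset.sum_congr rfl; intro k _
        ring
      · apply Finset.sum_congr rfl; intro c _
        rw [Finset.mul_sum]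
        apply Finset.sum_congr rfl; intro k _
        ring
    rw [h2]
    have h3 : sg a * sg a = 1 := sg_mul_self a
    have h4 : (1 : Matrix (ι × Bool) (ι × Bool) ℝ) (i, a) (j, a) = (1 : Matrix ι ι ℝ) i j := by
      simp only [Matrix.one_apply, Prod.mk.injEq, and_true]
    rw [h4]
    simp only [Matrix.smul_apply, Matrix.add_apply, PP, Fintype.sum_bool, smul_eq_mul]
    have h5 : ∀ x : ℝ, sg a * x * sg a = x := by
      intro x
      calc sg a * x * sg a = (sg a * sg a) * x := by ring
        _ = x := by rw [h3, one_mul]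
    rw [h5]
    cases a <;> simp <;> ring
  · rw [if_neg hab]
    have h1 : (1 : Matrix (ι × Bool) (ι × Bool) ℝ) (i, a) (j, b) = 0 := by
      rw [Matrix.one_apply_ne]
      simp [hab]
    have h2 : sg a * sg b = -1 := by
      cases a <;> cases b <;> simp_all [sg]
    rw [h1]
    have : sg a * PP (blk e) (blk f) (i, a) (j, b) * sg b =
        (sg a * sg b) * PP (blk e) (blk f) (i, a) (j, b) := by ring
    rw [this, h2]
    ring

/-- One-space version of the basic step. -/
theorem single_space (e f : Bool → Bool → Matrix ι ι ℝ) :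
    (1 / 4) * (∑ a : Bool, ∑ b : Bool,
      Real.log (1 + PP (e a b) (f (a ^^ b) a)).det) +
      (1 / 2) * (gg (PP (blk e) (blk f)) * gg (DD ι * PP (blk e) (blk f) * DD ι)).trace ≤
    Real.log (1 + PP (blk e) (blk f)).det := by
  set P := PP (blk e) (blk f) with hP
  have hPp : P.PosSemidef := PP_posSemidef _ _
  have hQp := DPD_posSemidef hPp
  have h1 := logdet_interaction hPp hQp
  rw [det_one_add_DPD] at h1
  have h2 : Real.log (1 + (P + DD ι * P * DD ι)).det =
      ∑ a : Bool, Real.log ((2⁻¹ : ℝ) • ((1 + PP (e a false) (f (a ^^ false) a)) +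
        (1 + PP (e a true) (f (a ^^ true) a)))).det := by
    rw [hP, fold_eq, det_blockDiagonal, Real.log_prod]
    intro a _
    have : ((2⁻¹ : ℝ) • ((1 + PP (e a false) (f (a ^^ false) a)) +
        (1 + PP (e a true) (f (a ^^ true) a)))).PosDef :=
      ((posDef_one_add (PP_posSemidef _ _)).add (posDef_one_add (PP_posSemidef _ _))).smul
        (by norm_num)
    exact this.det_pos.ne'
  have h3 : ∀ a : Bool, (1 / 2) * (∑ b : Bool,
      Real.log (1 + PP (e a b) (f (a ^^ b) a)).det) ≤
      Real.log ((2⁻¹ : ℝ) • ((1 + PP (e a false) (f (a ^^ false) a)) +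
        (1 + PP (e a true) (f (a ^^ true) a)))).det := by
    intro a
    have := logdet_midpoint (posDef_one_add (PP_posSemidef (e a false) (f (a ^^ false) a)))
      (posDef_one_add (PP_posSemidef (e a true) (f (a ^^ true) a)))
    rw [Fintype.sum_bool]
    linarith
  have h4 : (1 / 2) * (∑ a : Bool, ∑ b : Bool,
      Real.log (1 + PP (e a b) (f (a ^^ b) a)).det) ≤
      Real.log (1 + (P + DD ι * P * DD ι)).det := by
    rw [h2, Finset.mul_sum]
    exact Finset.sum_le_sum fun a _ => h3 a
  linarith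

/-- The potential of a triple of kernels. -/
noncomputable def Psi {κ : Type*} [Fintype κ] [DecidableEq κ] (M0 M1 M2 : Matrix κ κ ℝ) : ℝ :=
  ((PP M0 M2).trace - Real.log (1 + PP M0 M2).det) +
  ((PP M1 M0).trace - Real.log (1 + PP M1 M0).det) +
  ((PP M2 M1).trace - Real.log (1 + PP M2 M1).det)

theorem Psi_nonneg {κ : Type*} [Fintype κ] [DecidableEq κ] (M0 M1 M2 : Matrix κ κ ℝ) :
    0 ≤ Psi M0 M1 M2 := by
  have key : ∀ P : Matrix κ κ ℝ, P.PosSemidef → 0 ≤ P.trace - Real.log (1 + P).det := by
    intro P hP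
    have := logdet_le_trace (posDef_one_add hP)
    rw [Matrix.trace_add, Matrix.trace_one] at this
    linarith
  unfold Psi
  have h1 := key _ (PP_posSemidef M0 M2)
  have h2 := key _ (PP_posSemidef M1 M0)
  have h3 := key _ (PP_posSemidef M2 M1)
  linarith

/-- The interaction energy of a triple of kernels on a cube. -/
noncomputable def GG (M0 M1 M2 : Matrix (ι × Bool) (ι × Bool) ℝ) : ℝ :=
  (gg (PP M0 M2) * gg (DD ι * PP M0 M2 * DD ι)).trace +
  (gg (PP M1 M0) * gg (DD ι * PP M1 M0 * DD ι)).trace +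
  (gg (PP M2 M1) * gg (DD ι * PP M2 M1 * DD ι)).trace

theorem trace_blk (e f : Bool → Bool → Matrix ι ι ℝ) :
    (PP (blk e) (blk f)).trace = (1 / 4) * (∑ a : Bool, ∑ b : Bool,
      (PP (e a b) (f (a ^^ b) a)).trace) := by
  have h := congrArg Matrix.trace (fold_eq e f)
  rw [Matrix.trace_add, Matrix.trace_add, Matrix.trace_blockDiagonal, Matrix.trace_one] at h
  have hD : (DD ι * PP (blk e) (blk f) * DD ι).trace = (PP (blk e) (blk f)).trace := by
    rw [Matrix.trace_mul_comm, ← Matrix.mul_assoc, DD_mul_DD, Matrix.one_mul]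
  rw [hD] at h
  simp only [Matrix.trace_smul, Matrix.trace_add, Matrix.trace_one, Fintype.sum_bool,
    smul_eq_mul, Fintype.card_prod, Fintype.card_bool] at h
  push_cast at h
  simp only [Fintype.sum_bool]
  linarith

/-- The basic step of the multiscale argument. -/
theorem Psi_step (m0 m1 m2 : Bool → Bool → Matrix ι ι ℝ) :
    Psi (blk m0) (blk m1) (blk m2) + (1 / 2) * GG (blk m0) (blk m1) (blk m2) ≤
      (1 / 4) * ∑ a : Bool, ∑ b : Bool, Psi (m0 a b) (m1 b (a ^^ b)) (m2 (a ^^ b) a) := by
  have hx := single_space m0 m2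
  have hy := single_space m1 m0
  have hz := single_space m2 m1
  have tx := trace_blk m0 m2
  have ty := trace_blk m1 m0
  have tz := trace_blk m2 m1
  unfold Psi GG
  rw [tx, ty, tz]
  simp only [Fintype.sum_bool, Bool.xor_false, Bool.xor_true, Bool.not_true, Bool.not_false] at *
  linarith

end P075
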