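import Vale.Agent.P075.Form

/-! Supports, the index set, and the choice of scales. -/

open MeasureTheory Set

namespace P075

theorem Adm.supp {F : ℝ × ℝ → ℝ} (h : Adm F) :
    ∃ R : ℝ, ∀ x y : ℝ, (R ≤ x ∨ R ≤ y) → F (x, y) = 0 := by
  obtain ⟨-, -, hc⟩ := h
  obtain ⟨r, hr⟩ := hc.isCompact.isBounded.subset_closedBall 0
  refine ⟨r + 1, ?_⟩
  intro x y hxy
  by_contra hne
  have hmem : (x, y) ∈ tsupport F := subset_tsupport F hne
  have h1 := hr hmem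
  rw [mem_closedBall_zero_iff, Prod.norm_def] at h1
  have hx : |x| ≤ r := le_trans (le_max_left _ _) h1
  have hy : |y| ≤ r := le_trans (le_max_right _ _) h1
  rcases hxy with h | h
  · have := (abs_le.1 hx).2; linarith
  · have := (abs_le.1 hy).2; linarith

/-- A choice of the bottom scale and the number of scales. -/
theorem choose_scales (S : Finset ℤ) (R : ℝ) :
    ∃ (k0 : ℤ) (K : ℕ), (∀ k ∈ S, ∃ j : ℕ, j < K ∧ k = k0 + (j + 1)) ∧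
      R ≤ (2:ℝ) ^ k0 * 2 ^ K := by
  obtain ⟨lo, hlo⟩ := S.bddBelow
  obtain ⟨hi, hhi⟩ := S.bddAbove
  obtain ⟨m, hm⟩ := pow_unbounded_of_one_lt (R / (2:ℝ) ^ (lo - 1)) (one_lt_two)
  refine ⟨lo - 1, max m (hi - (lo - 1)).toNat, ?_, ?_⟩
  · intro k hk
    have h1 : lo ≤ k := hlo hk
    have h2 : k ≤ hi := hhi hk
    refine ⟨(k - lo).toNat, ?_, ?_⟩
    · apply lt_of_lt_of_le _ (le_max_right _ _)
      omega
    · omega
  · have hpos : (0:ℝ) < 2 ^ (lo - 1) := by positivity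
    rw [div_lt_iff₀ hpos] at hm
    have h2 : (2:ℝ) ^ m ≤ 2 ^ (max m (hi - (lo - 1)).toNat) :=
      pow_le_pow_right₀ (by norm_num) (le_max_left _ _)
    nlinarith

/-- Parametrization of the index set. -/
def tr (x : ℕ × ℕ) : Trip := ⟨(x.1, x.2, x.1 ^^^ x.2), by
  show x.1 ^^^ x.2 ^^^ (x.1 ^^^ x.2) = 0
  exact Nat.xor_self _⟩

theorem tr_bij : Function.Bijective tr := by
  constructor
  · intro x y h
    have h1 := congrArg (fun n : Trip => n.1.1) h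
    have h2 := congrArg (fun n : Trip => n.1.2.1) h
    exact Prod.ext h1 h2
  · rintro ⟨⟨p, q, r⟩, h⟩
    refine ⟨(p, q), ?_⟩
    apply Subtype.ext
    have h' : p ^^^ q ^^^ r = 0 := h
    have : p ^^^ q = r := Nat.xor_eq_zero_iff.1 h'
    show (p, q, p ^^^ q) = (p, q, r)
    rw [this]

theorem LI_eq_zero {k0 : ℤ} {K j p q : ℕ} (hj : j < K) {R : ℝ} {F0 F1 F2 : ℝ × ℝ → ℝ}
    (hR : R ≤ (2:ℝ) ^ k0 * 2 ^ K)
    (hF : ∀ x y : ℝ, (R ≤ x ∨ R ≤ y) → F0 (x, y) = 0)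
    (hpq : 2 ^ (K - 1 - j) ≤ p ∨ 2 ^ (K - 1 - j) ≤ q) :
    LI (k0 + (j + 1)) (p, q, p ^^^ q) F0 F1 F2 = 0 := by
  have hk : (2:ℝ) ^ k0 * 2 ^ K = (2:ℝ) ^ (k0 + ((j:ℤ) + 1)) * 2 ^ (K - 1 - j) := by
    rw [← zpow_natCast, ← zpow_natCast, ← zpow_add₀ (by norm_num), ← zpow_add₀ (by norm_num)]
    congr 1
    omega
  have hbig : ∀ m : ℕ, 2 ^ (K - 1 - j) ≤ m → ∀ x ∈ dyad (k0 + ((j:ℤ) + 1)) m, R ≤ x := by
    intro m hm x hx
    refine le_trans (le_trans hR ?_) hx.1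
    rw [hk]
    have : ((2:ℝ) ^ (K - 1 - j)) ≤ m := by exact_mod_cast hm
    exact mul_le_mul_of_nonneg_left this (by positivity)
  unfold LI
  rw [setIntegral_eq_zero_of_forall_eq_zero, mul_zero]
  rintro ⟨x, y, z⟩ ⟨hx, hy, hz⟩
  have : F0 (x, y) = 0 := by
    apply hF
    rcases hpq with h | h
    · exact Or.inl (hbig p h x hx)
    · exact Or.inr (hbig q h y hy)
  show F0 (x, y) * _ * _ * _ = 0
  rw [this]
  ring

theorem tsum_trip {k0 : ℤ} {K j : ℕ} (hj : j < K) {R : ℝ} {F0 F1 F2 : ℝ × ℝ → ℝ}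
    (hR : R ≤ (2:ℝ) ^ k0 * 2 ^ K)
    (hF : ∀ x y : ℝ, (R ≤ x ∨ R ≤ y) → F0 (x, y) = 0) :
    ∑' n : Trip, |LI (k0 + (j + 1)) n F0 F1 F2| =
      ∑ p ∈ Finset.range (2 ^ (K - 1 - j)), ∑ q ∈ Finset.range (2 ^ (K - 1 - j)),
        |LI (k0 + (j + 1)) (p, q, p ^^^ q) F0 F1 F2| := by
  rw [← (Equiv.ofBijective tr tr_bij).tsum_eq]
  rw [tsum_eq_sum (s := Finset.range (2 ^ (K - 1 - j)) ×ˢ Finset.range (2 ^ (K - 1 - j)))]
  · rw [Finset.sum_product]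
    rfl
  · rintro ⟨p, q⟩ hpq
    rw [Finset.mem_product, Finset.mem_range, Finset.mem_range, not_and_or, not_lt, not_lt] at hpq
    show |LI (k0 + (j + 1)) (p, q, p ^^^ q) F0 F1 F2| = 0
    rw [LI_eq_zero hj hR hF hpq, abs_zero]

theorem finite_LI {F0 F1 F2 : ℝ × ℝ → ℝ} (h0 : Adm F0) (k : ℤ) :
    {n : Trip | LI k n F0 F1 F2 ≠ 0}.Finite := by
  obtain ⟨R, hF⟩ := h0.supp
  obtain ⟨k0, K, hS, hR⟩ := choose_scales {k} R
  obtain ⟨j, hj, rfl⟩ := hS k (Finset.mem_singleton_self _)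
  apply Set.Finite.subset (s := tr '' (↑(Finset.range (2 ^ (K - 1 - j)) ×ˢ
    Finset.range (2 ^ (K - 1 - j))) : Set (ℕ × ℕ)))
  · exact (Finset.finite_toSet _).image _
  · intro n hn
    obtain ⟨⟨p, q⟩, rfl⟩ := tr_bij.2 n
    refine ⟨(p, q), ?_, rfl⟩
    by_contra hpq
    rw [Finset.mem_coe, Finset.mem_product, Finset.mem_range, Finset.mem_range, not_and_or,
      not_lt, not_lt] at hpq
    exact hn (LI_eq_zero hj hR hF hpq)

end P075
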