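import Vale.Agent.P075.Tri

/-! The trilinear trace inequality in terms of resolvent functions. -/

open Matrix Filter

namespace P075

variable {κ : Type*} [Fintype κ] [DecidableEq κ]

theorem gg_conj {V : Matrix κ κ ℝ} (hV : Vᴴ * V = 1) (d : κ → ℝ) (hd : ∀ i, 0 ≤ d i) :
    gg (V * Matrix.diagonal d * Vᴴ) = V * Matrix.diagonal (fun i => d i / (1 + d i)) * Vᴴ := by
  have hV' : V * Vᴴ = 1 := mul_eq_one_comm.1 hV
  have h1 : 1 + V * Matrix.diagonal d * Vᴴ = V * Matrix.diagonal (fun i => 1 + d i) * Vᴴ := by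
    have : Matrix.diagonal (fun i => 1 + d i) = 1 + Matrix.diagonal d := by
      rw [← Matrix.diagonal_one, Matrix.diagonal_add]
    rw [this, Matrix.mul_add, Matrix.add_mul, Matrix.mul_one, hV']
  have h2 : (V * Matrix.diagonal (fun i => 1 + d i) * Vᴴ)⁻¹ =
      V * Matrix.diagonal (fun i => (1 + d i)⁻¹) * Vᴴ := by
    apply Matrix.inv_eq_left_inv
    calc V * Matrix.diagonal (fun i => (1 + d i)⁻¹) * Vᴴ *
          (V * Matrix.diagonal (fun i => 1 + d i) * Vᴴ)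
        = V * Matrix.diagonal (fun i => (1 + d i)⁻¹) * (Vᴴ * V) *
          (Matrix.diagonal (fun i => 1 + d i) * Vᴴ) := by simp only [Matrix.mul_assoc]
      _ = V * (Matrix.diagonal (fun i => (1 + d i)⁻¹) *
          Matrix.diagonal (fun i => 1 + d i)) * Vᴴ := by
          rw [hV, Matrix.mul_one]; simp only [Matrix.mul_assoc]
      _ = 1 := by
          rw [Matrix.diagonal_mul_diagonal]
          have : (fun i => (1 + d i)⁻¹ * (1 + d i)) = fun _ => (1:ℝ) := by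
            funext i
            exact inv_mul_cancel₀ (by have := hd i; positivity)
          rw [this, Matrix.diagonal_one, Matrix.mul_one, hV']
  unfold gg
  rw [h1, h2]
  have h3 : (1 : Matrix κ κ ℝ) = V * Matrix.diagonal (fun _ => (1:ℝ)) * Vᴴ := by
    rw [Matrix.diagonal_one, Matrix.mul_one, hV']
  rw [h3, ← Matrix.sub_mul, ← Matrix.mul_sub, Matrix.diagonal_sub]
  congr 3
  funext i
  have : 1 + d i ≠ 0 := by have := hd i; positivity
  field_simp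
  ring

theorem gg_svd_right {U V : Matrix κ κ ℝ} {σ : κ → ℝ} (hU : Uᴴ * U = 1) (hV : Vᴴ * V = 1) :
    gg ((U * Matrix.diagonal σ * Vᴴ)ᴴ * (U * Matrix.diagonal σ * Vᴴ)) =
      V * Matrix.diagonal (fun i => σ i ^ 2 / (1 + σ i ^ 2)) * Vᴴ := by
  rw [← gg_conj hV (fun i => σ i ^ 2) (fun i => sq_nonneg _)]
  congr 1
  rw [conjTranspose_mul, conjTranspose_mul, conjTranspose_conjTranspose,
    Matrix.diagonal_conjTranspose]
  calc V * (Matrix.diagonal (star σ) * Uᴴ) * (U * Matrix.diagonal σ * Vᴴ)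
      = V * Matrix.diagonal (star σ) * (Uᴴ * U) * (Matrix.diagonal σ * Vᴴ) := by
        simp only [Matrix.mul_assoc]
    _ = V * (Matrix.diagonal (star σ) * Matrix.diagonal σ) * Vᴴ := by
        rw [hU, Matrix.mul_one]; simp only [Matrix.mul_assoc]
    _ = _ := by
        rw [Matrix.diagonal_mul_diagonal]
        congr 3
        funext i
        simp [sq]

theorem gg_svd_left {U V : Matrix κ κ ℝ} {σ : κ → ℝ} (hU : Uᴴ * U = 1) (hV : Vᴴ * V = 1) :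
    gg ((U * Matrix.diagonal σ * Vᴴ) * (U * Matrix.diagonal σ * Vᴴ)ᴴ) =
      U * Matrix.diagonal (fun i => σ i ^ 2 / (1 + σ i ^ 2)) * Uᴴ := by
  rw [← gg_conj hU (fun i => σ i ^ 2) (fun i => sq_nonneg _)]
  congr 1
  rw [conjTranspose_mul, conjTranspose_mul, conjTranspose_conjTranspose,
    Matrix.diagonal_conjTranspose]
  calc U * Matrix.diagonal σ * Vᴴ * (V * (Matrix.diagonal (star σ) * Uᴴ))
      = U * Matrix.diagonal σ * (Vᴴ * V) * (Matrix.diagonal (star σ) * Uᴴ) := by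
        simp only [Matrix.mul_assoc]
    _ = U * (Matrix.diagonal σ * Matrix.diagonal (star σ)) * Uᴴ := by
        rw [hV, Matrix.mul_one]; simp only [Matrix.mul_assoc]
    _ = _ := by
        rw [Matrix.diagonal_mul_diagonal]
        congr 3
        funext i
        simp [sq]

theorem trace_conj_conj (V U : Matrix κ κ ℝ) (d e : κ → ℝ) :
    ((V * Matrix.diagonal d * Vᴴ) * (U * Matrix.diagonal e * Uᴴ)).trace =
      ∑ i, ∑ j, (Vᴴ * U) i j ^ 2 * (d i * e j) := by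
  have h1 : ((V * Matrix.diagonal d * Vᴴ) * (U * Matrix.diagonal e * Uᴴ)).trace =
      (Matrix.diagonal d * (Vᴴ * U) * (Matrix.diagonal e * (Vᴴ * U)ᴴ)).trace := by
    have : (V * Matrix.diagonal d * Vᴴ) * (U * Matrix.diagonal e * Uᴴ) =
        V * (Matrix.diagonal d * (Vᴴ * U) * (Matrix.diagonal e * Uᴴ)) := by
      simp only [Matrix.mul_assoc]
    rw [this, Matrix.trace_mul_comm, conjTranspose_mul, conjTranspose_conjTranspose]
    simp only [Matrix.mul_assoc]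
  rw [h1, Matrix.trace]
  apply Finset.sum_congr rfl; intro i _
  rw [Matrix.diag_apply, Matrix.mul_apply]
  apply Finset.sum_congr rfl; intro j _
  rw [Matrix.diagonal_mul, Matrix.diagonal_mul, conjTranspose_apply]
  simp only [star_trivial]
  ring

/-- Pair energies. -/
noncomputable def EE (A B : Matrix κ κ ℝ) : ℝ := (gg (Aᴴ * A) * gg (B * Bᴴ)).trace

theorem EE_svd {U V U' V' : Matrix κ κ ℝ} {σ τ : κ → ℝ} (hU : Uᴴ * U = 1) (hV : Vᴴ * V = 1)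
    (hU' : U'ᴴ * U' = 1) (hV' : V'ᴴ * V' = 1) :
    EE (U * Matrix.diagonal σ * Vᴴ) (U' * Matrix.diagonal τ * V'ᴴ) =
      ∑ i, ∑ j, (Vᴴ * U') i j ^ 2 *
        (σ i ^ 2 / (1 + σ i ^ 2) * (τ j ^ 2 / (1 + τ j ^ 2))) := by
  unfold EE
  rw [gg_svd_right hU hV, gg_svd_left hU' hV', trace_conj_conj]

theorem smul_svd {U V : Matrix κ κ ℝ} {σ : κ → ℝ} (c : ℝ) :
    c • (U * Matrix.diagonal σ * Vᴴ) = U * Matrix.diagonal (fun i => c * σ i) * Vᴴ := by
  have : Matrix.diagonal (fun i => c * σ i) = c • Matrix.diagonal σ := by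
    rw [← Matrix.diagonal_smul]; rfl
  rw [this, Matrix.mul_smul, Matrix.smul_mul]

theorem eventually_range (x : κ → ℝ) (hx : ∀ i, 0 ≤ x i) :
    ∀ᶠ L : ℕ in atTop, ∀ i, (x i = 0 ∨ (1 / 2 ^ L : ℝ) ≤ x i) ∧ x i ≤ 2 ^ L := by
  rw [eventually_all]
  intro i
  have t1 : Tendsto (fun L : ℕ => (2:ℝ) ^ L) atTop atTop :=
    tendsto_pow_atTop_atTop_of_one_lt (by norm_num)
  apply Eventually.and
  · rcases (hx i).eq_or_lt with h | h
    · exact Eventually.of_forall fun L => Or.inl h.symm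
    · filter_upwards [t1.eventually_ge_atTop (1 / x i)] with L hL
      right
      rw [div_le_iff₀ (by positivity)]
      rw [div_le_iff₀ h] at hL
      linarith
  · exact t1.eventually_ge_atTop _

theorem mm_sum_le_EE {U V U' V' : Matrix κ κ ℝ} {σ τ : κ → ℝ} (hU : Uᴴ * U = 1)
    (hV : Vᴴ * V = 1) (hU' : U'ᴴ * U' = 1) (hV' : V'ᴴ * V' = 1)
    (hσ : ∀ i, 0 ≤ σ i) (hτ : ∀ i, 0 ≤ τ i) (L : ℕ)
    (h1 : ∀ i, (σ i = 0 ∨ (1 / 2 ^ L : ℝ) ≤ σ i) ∧ σ i ≤ 2 ^ L)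
    (h2 : ∀ i, (τ i = 0 ∨ (1 / 2 ^ L : ℝ) ≤ τ i) ∧ τ i ≤ 2 ^ L) :
    ∑ i, ∑ j, (Vᴴ * U') i j ^ 2 * mm (σ i) (τ j) ≤
      32 * ∑ k ∈ Finset.range (2 * L + 1), (2 ^ k / 2 ^ L : ℝ) ^ 3 *
        EE ((2 ^ k / 2 ^ L : ℝ)⁻¹ • (U * Matrix.diagonal σ * Vᴴ))
          ((2 ^ k / 2 ^ L : ℝ)⁻¹ • (U' * Matrix.diagonal τ * V'ᴴ)) := by
  have hE : ∀ k : ℕ, EE ((2 ^ k / 2 ^ L : ℝ)⁻¹ • (U * Matrix.diagonal σ * Vᴴ))
          ((2 ^ k / 2 ^ L : ℝ)⁻¹ • (U' * Matrix.diagonal τ * V'ᴴ)) =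
      ∑ i, ∑ j, (Vᴴ * U') i j ^ 2 *
        ((σ i ^ 2 / (2 ^ k / 2 ^ L) ^ 2) / (1 + σ i ^ 2 / (2 ^ k / 2 ^ L) ^ 2) *
        ((τ j ^ 2 / (2 ^ k / 2 ^ L) ^ 2) / (1 + τ j ^ 2 / (2 ^ k / 2 ^ L) ^ 2))) := by
    intro k
    rw [smul_svd, smul_svd, EE_svd hU hV hU' hV']
    apply Finset.sum_congr rfl; intro i _
    apply Finset.sum_congr rfl; intro j _
    rw [mul_pow, mul_pow, inv_pow]
    rw [div_eq_mul_inv (σ i ^ 2) ((2 ^ k / 2 ^ L) ^ 2), div_eq_mul_inv (τ j ^ 2) ((2 ^ k / 2 ^ L) ^ 2),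
      mul_comm (σ i ^ 2), mul_comm (τ j ^ 2)]
  simp_rw [hE, Finset.mul_sum]
  rw [Finset.sum_comm (s := Finset.range (2 * L + 1))]
  apply Finset.sum_le_sum; intro i _
  rw [Finset.sum_comm (s := Finset.range (2 * L + 1))]
  apply Finset.sum_le_sum; intro j _
  have hmax1 : max (σ i) (τ j) = 0 ∨ (1 / 2 ^ L : ℝ) ≤ max (σ i) (τ j) := by
    rcases (h1 i).1 with a | a
    · rcases (h2 j).1 with b | b
      · left; rw [a, b]; simp
      · right; exact b.trans (le_max_right _ _)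
    · right; exact a.trans (le_max_left _ _)
  have hmax2 : max (σ i) (τ j) ≤ 2 ^ L := max_le (h1 i).2 (h2 j).2
  have key := mm_le_sum (hσ i) (hτ j) L hmax1 hmax2
  have := mul_le_mul_of_nonneg_left key (sq_nonneg ((Vᴴ * U') i j))
  refine this.trans (le_of_eq ?_)
  rw [Finset.mul_sum, Finset.mul_sum]
  apply Finset.sum_congr rfl; intro k _
  ring

/-- The trilinear trace inequality. -/
theorem trilinear (A B C : Matrix κ κ ℝ) :
    ∀ᶠ L : ℕ in atTop, |(A * B * C).trace| ≤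
      16 * ∑ k ∈ Finset.range (2 * L + 1), (2 ^ k / 2 ^ L : ℝ) ^ 3 *
        (EE ((2 ^ k / 2 ^ L : ℝ)⁻¹ • A) ((2 ^ k / 2 ^ L : ℝ)⁻¹ • B) +
         EE ((2 ^ k / 2 ^ L : ℝ)⁻¹ • B) ((2 ^ k / 2 ^ L : ℝ)⁻¹ • C) +
         EE ((2 ^ k / 2 ^ L : ℝ)⁻¹ • C) ((2 ^ k / 2 ^ L : ℝ)⁻¹ • A)) := by
  obtain ⟨U0, V0, α, hU0, hV0, hα, rfl⟩ := exists_svd A
  obtain ⟨U1, V1, β, hU1, hV1, hβ, rfl⟩ := exists_svd B
  obtain ⟨U2, V2, γ, hU2, hV2, hγ, rfl⟩ := exists_svd C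
  have orth : ∀ {V U : Matrix κ κ ℝ}, Vᴴ * V = 1 → Uᴴ * U = 1 →
      (Vᴴ * U)ᴴ * (Vᴴ * U) = 1 := by
    intro V U hV hU
    have hV' : V * Vᴴ = 1 := mul_eq_one_comm.1 hV
    rw [conjTranspose_mul, conjTranspose_conjTranspose]
    calc Uᴴ * V * (Vᴴ * U) = Uᴴ * (V * Vᴴ) * U := by simp only [Matrix.mul_assoc]
      _ = 1 := by rw [hV', Matrix.mul_one, hU]
  have htr : ((U0 * Matrix.diagonal α * V0ᴴ) * (U1 * Matrix.diagonal β * V1ᴴ) *
      (U2 * Matrix.diagonal γ * V2ᴴ)).trace =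
      ∑ i, ∑ j, ∑ k, α i * (V0ᴴ * U1) i j * β j * (V1ᴴ * U2) j k * γ k * (V2ᴴ * U0) k i := by
    have e1 : (U0 * Matrix.diagonal α * V0ᴴ) * (U1 * Matrix.diagonal β * V1ᴴ) *
        (U2 * Matrix.diagonal γ * V2ᴴ) =
        U0 * (Matrix.diagonal α * (V0ᴴ * U1) * (Matrix.diagonal β * (V1ᴴ * U2) *
          (Matrix.diagonal γ * V2ᴴ))) := by
      simp only [Matrix.mul_assoc]
    have e2 : (Matrix.diagonal α * (V0ᴴ * U1) * (Matrix.diagonal β * (V1ᴴ * U2) *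
          (Matrix.diagonal γ * V2ᴴ))) * U0 =
        Matrix.diagonal α * (V0ᴴ * U1) * (Matrix.diagonal β * (V1ᴴ * U2) *
          (Matrix.diagonal γ * (V2ᴴ * U0))) := by
      simp only [Matrix.mul_assoc]
    rw [e1, Matrix.trace_mul_comm, e2, Matrix.trace]
    apply Finset.sum_congr rfl; intro i _
    rw [Matrix.diag_apply, Matrix.mul_apply]
    apply Finset.sum_congr rfl; intro j _
    rw [Matrix.mul_apply (M := Matrix.diagonal β * (V1ᴴ * U2)), Finset.mul_sum]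
    apply Finset.sum_congr rfl; intro k _
    rw [Matrix.diagonal_mul, Matrix.diagonal_mul, Matrix.diagonal_mul]
    ring
  filter_upwards [eventually_range α hα, eventually_range β hβ, eventually_range γ hγ]
    with L h0 h1 h2
  rw [htr]
  refine (region (orth hV0 hU1) (orth hV1 hU2) (orth hV2 hU0) α β γ hα hβ hγ).trans ?_
  have b1 := mm_sum_le_EE hU0 hV0 hU1 hV1 hα hβ L h0 h1
  have b2 := mm_sum_le_EE hU1 hV1 hU2 hV2 hβ hγ L h1 h2
  have b3 := mm_sum_le_EE hU2 hV2 hU0 hV0 hγ hα L h2 h0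
  simp only [mul_add, Finset.sum_add_distrib] at *
  linarith

end P075
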