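import Vale.Agent.P075.Trace

/-! The multiscale induction. -/

open Matrix Filter

namespace P075

variable {ι : Type*} [Fintype ι] [DecidableEq ι]

theorem EE_le_GG (M N : Matrix (ι × Bool) (ι × Bool) ℝ) :
    EE (DD ι * M) (DD ι * N) ≤ (gg (PP N M) * gg (DD ι * PP N M * DD ι)).trace := by
  unfold EE
  have h1 : (DD ι * M)ᴴ * (DD ι * M) = Mᴴ * M := by
    rw [conjTranspose_mul, DD_herm, Matrix.mul_assoc, ← Matrix.mul_assoc (DD ι), DD_mul_DD,
      Matrix.one_mul]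
  have h2 : DD ι * N * (DD ι * N)ᴴ = DD ι * (N * Nᴴ) * DD ι := by
    rw [conjTranspose_mul, DD_herm]; simp only [Matrix.mul_assoc]
  rw [h1, h2]
  have p1 : (Mᴴ * M).PosSemidef := posSemidef_conjTranspose_mul_self M
  have p2 : (N * Nᴴ).PosSemidef := posSemidef_self_mul_conjTranspose N
  have e1 : PP N M - Mᴴ * M = N * Nᴴ := by unfold PP; abel
  have e2 : DD ι * PP N M * DD ι - DD ι * (N * Nᴴ) * DD ι = DD ι * (Mᴴ * M) * DD ι := by
    unfold PP
    rw [Matrix.mul_add, Matrix.add_mul]; abel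
  apply trace_mul_mono
  · exact gg_posSemidef p1
  · exact gg_mono p1 (by rw [e1]; exact p2)
  · exact gg_posSemidef (DPD_posSemidef (PP_posSemidef _ _))
  · exact gg_mono (DPD_posSemidef p2) (by rw [e2]; exact DPD_posSemidef p1)

/-- Local estimate for one cube. -/
theorem local_estimate (M0 M1 M2 : Matrix (ι × Bool) (ι × Bool) ℝ) :
    ∀ᶠ L : ℕ in atTop, |((DD ι * M0) * (DD ι * M1) * (DD ι * M2)).trace| ≤
      16 * ∑ k ∈ Finset.range (2 * L + 1), (2 ^ k / 2 ^ L : ℝ) ^ 3 *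
        GG ((2 ^ k / 2 ^ L : ℝ)⁻¹ • M0) ((2 ^ k / 2 ^ L : ℝ)⁻¹ • M1)
          ((2 ^ k / 2 ^ L : ℝ)⁻¹ • M2) := by
  filter_upwards [trilinear (DD ι * M0) (DD ι * M1) (DD ι * M2)] with L hL
  refine hL.trans (mul_le_mul_of_nonneg_left (Finset.sum_le_sum fun k _ => ?_) (by norm_num))
  apply mul_le_mul_of_nonneg_left _ (by positivity)
  simp only [← Matrix.mul_smul]
  have b1 := EE_le_GG ((2 ^ k / 2 ^ L : ℝ)⁻¹ • M0) ((2 ^ k / 2 ^ L : ℝ)⁻¹ • M1)
  have b2 := EE_le_GG ((2 ^ k / 2 ^ L : ℝ)⁻¹ • M1) ((2 ^ k / 2 ^ L : ℝ)⁻¹ • M2)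
  have b3 := EE_le_GG ((2 ^ k / 2 ^ L : ℝ)⁻¹ • M2) ((2 ^ k / 2 ^ L : ℝ)⁻¹ • M0)
  unfold GG
  linarith

theorem GG_nonneg (M0 M1 M2 : Matrix (ι × Bool) (ι × Bool) ℝ) : 0 ≤ GG M0 M1 M2 := by
  have key : ∀ P : Matrix (ι × Bool) (ι × Bool) ℝ, P.PosSemidef →
      0 ≤ (gg P * gg (DD ι * P * DD ι)).trace := fun P hP =>
    trace_mul_nonneg (gg_posSemidef hP) (gg_posSemidef (DPD_posSemidef hP))
  unfold GG
  have h1 := key _ (PP_posSemidef M0 M2)
  have h2 := key _ (PP_posSemidef M1 M0)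
  have h3 := key _ (PP_posSemidef M2 M1)
  linarith

/-- Binary words of length `n`. -/
def T : ℕ → Type
  | 0 => Unit
  | (n + 1) => T n × Bool

instance instFintypeT : ∀ n, Fintype (T n)
  | 0 => inferInstanceAs (Fintype Unit)
  | (n + 1) => by
      haveI := instFintypeT n
      exact inferInstanceAs (Fintype (T n × Bool))

instance instDecidableEqT : ∀ n, DecidableEq (T n)
  | 0 => inferInstanceAs (DecidableEq Unit)
  | (n + 1) => by
      haveI := instDecidableEqT n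
      exact inferInstanceAs (DecidableEq (T n × Bool))

instance instUniqueT : Unique (T 0) := inferInstanceAs (Unique Unit)

/-- Value of a binary word (the last letter is the most significant one). -/
def val : ∀ n, T n → ℕ
  | 0, _ => 0
  | (n + 1), p => val n p.1 + 2 ^ n * p.2.toNat

theorem sum_T_range (n : ℕ) (h : ℕ → ℝ) : ∑ i : T n, h (val n i) = ∑ i ∈ Finset.range (2 ^ n), h i := by
  induction n generalizing h with
  | zero =>
    have : ∑ i : T 0, h (val 0 i) = ∑ i : Unit, h 0 := rfl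
    rw [this]; simp
  | succ n ih =>
    have e1 : ∑ i : T (n + 1), h (val (n + 1) i) =
        ∑ p : T n × Bool, h (val n p.1 + 2 ^ n * p.2.toNat) := rfl
    rw [e1, Fintype.sum_prod_type]
    have e2 : ∑ x : T n, ∑ y : Bool, h (val n x + 2 ^ n * y.toNat) =
        ∑ x : T n, (fun t => h t + h (t + 2 ^ n)) (val n x) := by
      apply Finset.sum_congr rfl; intro x _
      rw [Fintype.sum_bool]; simp [add_comm]
    rw [e2]
    refine (ih (fun t => h t + h (t + 2 ^ n))).trans ?_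
    rw [pow_succ, mul_two, Finset.sum_range_add, Finset.sum_add_distrib]
    simp [add_comm]

/-- Local kernel of the array `f` on the square with indices `p, q` at level `j`. -/
noncomputable def mat (f : ℕ → ℕ → ℝ) (j p q : ℕ) : Matrix (T j) (T j) ℝ :=
  fun i i' => f (2 ^ j * p + val j i) (2 ^ j * q + val j i') / 2 ^ j

theorem mat_succ (f : ℕ → ℕ → ℝ) (j p q : ℕ) :
    mat f (j + 1) p q = blk (ι := T j) (fun a b => mat f j (2 * p + a.toNat) (2 * q + b.toNat)) := by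
  funext i i'
  show f (2 ^ (j + 1) * p + (val j i.1 + 2 ^ j * i.2.toNat))
      (2 ^ (j + 1) * q + (val j i'.1 + 2 ^ j * i'.2.toNat)) / 2 ^ (j + 1) =
    (1 / 2) * (f (2 ^ j * (2 * p + i.2.toNat) + val j i.1)
      (2 ^ j * (2 * q + i'.2.toNat) + val j i'.1) / 2 ^ j)
  have h1 : 2 ^ (j + 1) * p + (val j i.1 + 2 ^ j * i.2.toNat) =
      2 ^ j * (2 * p + i.2.toNat) + val j i.1 := by ring
  have h2 : 2 ^ (j + 1) * q + (val j i'.1 + 2 ^ j * i'.2.toNat) =
      2 ^ j * (2 * q + i'.2.toNat) + val j i'.1 := by ring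
  rw [h1, h2, pow_succ]
  field_simp

theorem mat_smul (f : ℕ → ℕ → ℝ) (c : ℝ) (j p q : ℕ) :
    c • mat f j p q = mat (fun x y => c * f x y) j p q := by
  funext i i'
  simp only [mat, Matrix.smul_apply, smul_eq_mul]
  ring

theorem xor_step (p q : ℕ) (a b : Bool) :
    (2 * p + a.toNat) ^^^ (2 * q + b.toNat) = 2 * (p ^^^ q) + (a ^^ b).toNat := by
  have h := Nat.xor_bit a p b q
  simp only [Nat.bit_val] at h
  simpa using h

/-- Potential on a cube. -/
noncomputable def PsiC (f0 f1 f2 : ℕ → ℕ → ℝ) (j p q : ℕ) : ℝ :=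
  Psi (mat f0 j p q) (mat f1 j q (p ^^^ q)) (mat f2 j (p ^^^ q) p)

/-- Interaction energy on a cube. -/
noncomputable def GGC (f0 f1 f2 : ℕ → ℕ → ℝ) (j p q : ℕ) : ℝ :=
  GG (ι := T j) (mat f0 (j + 1) p q) (mat f1 (j + 1) q (p ^^^ q)) (mat f2 (j + 1) (p ^^^ q) p)

theorem PsiC_step (f0 f1 f2 : ℕ → ℕ → ℝ) (j p q : ℕ) :
    PsiC f0 f1 f2 (j + 1) p q + (1 / 2) * GGC f0 f1 f2 j p q ≤
      (1 / 4) * ∑ a : Bool, ∑ b : Bool, PsiC f0 f1 f2 j (2 * p + a.toNat) (2 * q + b.toNat) := by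
  have h := Psi_step (ι := T j) (fun a b => mat f0 j (2 * p + a.toNat) (2 * q + b.toNat))
    (fun b c => mat f1 j (2 * q + b.toNat) (2 * (p ^^^ q) + c.toNat))
    (fun c a => mat f2 j (2 * (p ^^^ q) + c.toNat) (2 * p + a.toNat))
  rw [← mat_succ, ← mat_succ, ← mat_succ] at h
  unfold PsiC GGC
  refine h.trans (le_of_eq ?_)
  congr 1
  apply Finset.sum_congr rfl; intro a _
  apply Finset.sum_congr rfl; intro b _
  rw [xor_step]

theorem sum_range_double (m : ℕ) (h : ℕ → ℝ) :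
    ∑ p ∈ Finset.range (2 ^ (m + 1)), h p =
      ∑ p ∈ Finset.range (2 ^ m), ∑ a : Bool, h (2 * p + a.toNat) := by
  have key : ∀ n : ℕ, ∑ p ∈ Finset.range (2 * n), h p =
      ∑ p ∈ Finset.range n, ∑ a : Bool, h (2 * p + a.toNat) := by
    intro n
    induction n with
    | zero => simp
    | succ n ih =>
      rw [mul_add, mul_one, Finset.sum_range_succ, Finset.sum_range_succ, ih,
        Finset.sum_range_succ, Fintype.sum_bool]
      simp only [Bool.toNat_true, Bool.toNat_false, add_zero]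
      ring
  rw [pow_succ, mul_comm, key]

theorem sum_step (f0 f1 f2 : ℕ → ℕ → ℝ) (j m : ℕ) :
    4 ^ (j + 1) * (∑ p ∈ Finset.range (2 ^ m), ∑ q ∈ Finset.range (2 ^ m),
        PsiC f0 f1 f2 (j + 1) p q) +
      4 ^ (j + 1) * (∑ p ∈ Finset.range (2 ^ m), ∑ q ∈ Finset.range (2 ^ m),
        (1 / 2) * GGC f0 f1 f2 j p q) ≤
    4 ^ j * (∑ p ∈ Finset.range (2 ^ (m + 1)), ∑ q ∈ Finset.range (2 ^ (m + 1)),
        PsiC f0 f1 f2 j p q) := by
  have e : ∑ p ∈ Finset.range (2 ^ (m + 1)), ∑ q ∈ Finset.range (2 ^ (m + 1)),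
        PsiC f0 f1 f2 j p q =
      ∑ p ∈ Finset.range (2 ^ m), ∑ q ∈ Finset.range (2 ^ m), ∑ a : Bool, ∑ b : Bool,
        PsiC f0 f1 f2 j (2 * p + a.toNat) (2 * q + b.toNat) := by
    rw [sum_range_double]
    apply Finset.sum_congr rfl; intro p _
    have e2 : ∀ a : Bool, ∑ q ∈ Finset.range (2 ^ (m + 1)), PsiC f0 f1 f2 j (2 * p + a.toNat) q =
        ∑ q ∈ Finset.range (2 ^ m), ∑ b : Bool,
          PsiC f0 f1 f2 j (2 * p + a.toNat) (2 * q + b.toNat) := fun a => sum_range_double m _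
    simp_rw [e2]
    rw [Finset.sum_comm]
  rw [e, ← mul_add, ← Finset.sum_add_distrib, pow_succ, mul_assoc]
  apply mul_le_mul_of_nonneg_left _ (by positivity)
  rw [Finset.mul_sum]
  apply Finset.sum_le_sum; intro p _
  rw [← Finset.sum_add_distrib, Finset.mul_sum]
  apply Finset.sum_le_sum; intro q _
  have := PsiC_step f0 f1 f2 j p q
  linarith

theorem sum_all (f0 f1 f2 : ℕ → ℕ → ℝ) (j m : ℕ) :
    4 ^ j * (∑ p ∈ Finset.range (2 ^ m), ∑ q ∈ Finset.range (2 ^ m),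
        PsiC f0 f1 f2 j p q) +
      ∑ i ∈ Finset.range j, 4 ^ (i + 1) * (∑ p ∈ Finset.range (2 ^ (m + j - 1 - i)),
        ∑ q ∈ Finset.range (2 ^ (m + j - 1 - i)), (1 / 2) * GGC f0 f1 f2 i p q) ≤
    ∑ p ∈ Finset.range (2 ^ (m + j)), ∑ q ∈ Finset.range (2 ^ (m + j)),
        PsiC f0 f1 f2 0 p q := by
  induction j generalizing m with
  | zero => simp
  | succ j ih =>
    have h1 := sum_step f0 f1 f2 j m
    have h2 := ih (m + 1)
    rw [Finset.sum_range_succ]
    have e1 : m + (j + 1) - 1 - j = m := by omega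
    rw [e1]
    have e2 : ∀ i, m + 1 + j - 1 - i = m + (j + 1) - 1 - i := by intro i; omega
    simp only [e2] at h2
    have e3 : m + 1 + j = m + (j + 1) := by ring
    rw [e3] at h2
    linarith

/-- The multiscale energy estimate. -/
theorem energy (f0 f1 f2 : ℕ → ℕ → ℝ) (K : ℕ) :
    ∑ i ∈ Finset.range K, 4 ^ (i + 1) * (∑ p ∈ Finset.range (2 ^ (K - 1 - i)),
        ∑ q ∈ Finset.range (2 ^ (K - 1 - i)), (1 / 2) * GGC f0 f1 f2 i p q) ≤
    ∑ p ∈ Finset.range (2 ^ K), ∑ q ∈ Finset.range (2 ^ K), PsiC f0 f1 f2 0 p q := by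
  have h := sum_all f0 f1 f2 K 0
  simp only [zero_add] at h
  have h2 : 0 ≤ 4 ^ K * (∑ p ∈ Finset.range (2 ^ 0), ∑ q ∈ Finset.range (2 ^ 0),
        PsiC f0 f1 f2 K p q) := by
    apply mul_nonneg (by positivity)
    exact Finset.sum_nonneg fun p _ => Finset.sum_nonneg fun q _ => Psi_nonneg _ _ _
  exact (le_add_of_nonneg_left h2).trans h

/-- The elementary function `u - log (1 + u)`. -/
noncomputable def eta (u : ℝ) : ℝ := u - Real.log (1 + u)

theorem PsiC_zero (f0 f1 f2 : ℕ → ℕ → ℝ) (p q : ℕ) :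
    PsiC f0 f1 f2 0 p q = eta (f0 p q ^ 2 + f2 (p ^^^ q) p ^ 2) +
      eta (f1 q (p ^^^ q) ^ 2 + f0 p q ^ 2) + eta (f2 (p ^^^ q) p ^ 2 + f1 q (p ^^^ q) ^ 2) := by
  have key : ∀ (f g : ℕ → ℕ → ℝ) (a b c d : ℕ),
      (PP (mat f 0 a b) (mat g 0 c d)).trace - Real.log (1 + PP (mat f 0 a b) (mat g 0 c d)).det =
        eta (f a b ^ 2 + g c d ^ 2) := by
    intro f g a b c d
    have hu : ∀ (M : Matrix (T 0) (T 0) ℝ), M.trace = M default default := by
      intro M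
      rw [Matrix.trace, Fintype.sum_unique, Matrix.diag_apply]
    have hdet : ∀ (M : Matrix (T 0) (T 0) ℝ), M.det = M default default := fun M =>
      Matrix.det_unique M
    have hPP : PP (mat f 0 a b) (mat g 0 c d) default default = f a b ^ 2 + g c d ^ 2 := by
      have hmul : ∀ (M N : Matrix (T 0) (T 0) ℝ),
          (M * N) default default = M default default * N default default := by
        intro M N
        rw [Matrix.mul_apply, Fintype.sum_unique]
      unfold PP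
      rw [Matrix.add_apply, hmul, hmul]
      simp only [conjTranspose_apply, star_trivial, mat, val, pow_zero, one_mul, add_zero, div_one]
      ring
    rw [hu, hdet, Matrix.add_apply, hPP, Matrix.one_apply_eq]
    rfl
  unfold PsiC Psi
  rw [key, key, key]

theorem eta_sum {s : ℝ} (hs : 0 ≤ s) (L : ℕ) :
    ∑ k ∈ Finset.range (2 * L + 1), (2 ^ k / 2 ^ L : ℝ) ^ 3 * eta (s / (2 ^ k / 2 ^ L) ^ 2) ≤
      (7 / 2) * (Real.sqrt s) ^ 3 := by
  rcases hs.eq_or_lt with h | h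
  · rw [← h]; simp [eta]
  set r := Real.sqrt s with hr
  have hrpos : 0 < r := Real.sqrt_pos.2 h
  have hr2 : r ^ 2 = s := Real.sq_sqrt hs
  let F : ℕ → ℝ := fun k => (2 ^ k / 2 ^ L : ℝ) / ((2 ^ k / 2 ^ L : ℝ) + r)
  have hterm : ∀ k, (2 ^ k / 2 ^ L : ℝ) ^ 3 * eta (s / (2 ^ k / 2 ^ L) ^ 2) ≤
      (7 / 2) * r ^ 3 * (F (k + 1) - F k) := by
    intro k
    simp only [F]
    have hl2 : (2 ^ (k + 1) / 2 ^ L : ℝ) = 2 * (2 ^ k / 2 ^ L) := by rw [pow_succ]; ring
    rw [hl2]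
    set l : ℝ := 2 ^ k / 2 ^ L with hl
    have hlpos : 0 < l := by positivity
    have h1 : eta (s / l ^ 2) ≤ r ^ 4 / (l ^ 2 * (l ^ 2 + r ^ 2)) := by
      unfold eta
      have hpos : 0 < 1 + s / l ^ 2 := by positivity
      have := Real.one_sub_inv_le_log_of_pos hpos
      have e : s / l ^ 2 - (1 - (1 + s / l ^ 2)⁻¹) = r ^ 4 / (l ^ 2 * (l ^ 2 + r ^ 2)) := by
        rw [← hr2]
        field_simp
        ring
      linarith
    have h2 : l ^ 3 * eta (s / l ^ 2) ≤ l ^ 3 * (r ^ 4 / (l ^ 2 * (l ^ 2 + r ^ 2))) :=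
      mul_le_mul_of_nonneg_left h1 (by positivity)
    refine h2.trans ?_
    have e1 : l ^ 3 * (r ^ 4 / (l ^ 2 * (l ^ 2 + r ^ 2))) = r ^ 3 * (l * r / (l ^ 2 + r ^ 2)) := by
      field_simp
    have e2 : 2 * l / (2 * l + r) - l / (l + r) = l * r / ((2 * l + r) * (l + r)) := by
      field_simp
      ring
    rw [e1, e2]
    have h3 : l * r / (l ^ 2 + r ^ 2) ≤ (7 / 2) * (l * r / ((2 * l + r) * (l + r))) := by
      rw [← mul_div_assoc, div_le_div_iff₀ (by positivity) (by positivity)]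
      have : 0 < l * r := by positivity
      nlinarith [mul_nonneg this.le (sq_nonneg (l - r))]
    calc r ^ 3 * (l * r / (l ^ 2 + r ^ 2)) ≤ r ^ 3 * ((7 / 2) * (l * r / ((2 * l + r) * (l + r)))) :=
          mul_le_mul_of_nonneg_left h3 (by positivity)
      _ = _ := by ring
  calc _ ≤ ∑ k ∈ Finset.range (2 * L + 1), (7 / 2) * r ^ 3 * (F (k + 1) - F k) :=
        Finset.sum_le_sum fun k _ => hterm k
    _ = (7 / 2) * r ^ 3 * (F (2 * L + 1) - F 0) := by
        rw [← Finset.mul_sum, Finset.sum_range_sub]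
    _ ≤ (7 / 2) * r ^ 3 * 1 := by
        apply mul_le_mul_of_nonneg_left _ (by positivity)
        have h1 : F (2 * L + 1) ≤ 1 := by
          simp only [F]
          rw [div_le_one (by positivity)]
          linarith
        have h0 : 0 ≤ F 0 := by simp only [F]; positivity
        linarith
    _ = _ := by ring

end P075
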