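import Vale.Agent.P075.Step

/-! The trilinear trace inequality. -/

open Matrix

namespace P075

variable {κ : Type*} [Fintype κ] [DecidableEq κ]

/-- Matrix whose columns are the vectors of an orthonormal basis. -/
noncomputable def colM (b : OrthonormalBasis κ ℝ (EuclideanSpace ℝ κ)) : Matrix κ κ ℝ :=
  fun i j => b j i

theorem colM_left (b : OrthonormalBasis κ ℝ (EuclideanSpace ℝ κ)) : (colM b)ᴴ * colM b = 1 := by
  ext i j
  rw [Matrix.mul_apply]
  have h := b.inner_eq_ite i j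
  rw [PiLp.inner_apply] at h
  rw [Matrix.one_apply, ← h]
  apply Finset.sum_congr rfl
  intro k _
  simp [colM, conjTranspose_apply, mul_comm]

theorem colM_right (b : OrthonormalBasis κ ℝ (EuclideanSpace ℝ κ)) : colM b * (colM b)ᴴ = 1 :=
  mul_eq_one_comm.1 (colM_left b)

/-- Singular value decomposition. -/
theorem exists_svd (A : Matrix κ κ ℝ) : ∃ (U V : Matrix κ κ ℝ) (σ : κ → ℝ),
    Uᴴ * U = 1 ∧ Vᴴ * V = 1 ∧ (∀ i, 0 ≤ σ i) ∧ A = U * Matrix.diagonal σ * Vᴴ := by
  classical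
  have hS : (Aᴴ * A).PosSemidef := posSemidef_conjTranspose_mul_self A
  set v := hS.1.eigenvectorBasis with hv
  set lam := hS.1.eigenvalues with hlam
  have hlam0 : ∀ i, 0 ≤ lam i := hS.eigenvalues_nonneg
  let w : κ → EuclideanSpace ℝ κ := fun i => WithLp.toLp 2 (A *ᵥ (v i))
  have hw : ∀ i j, inner ℝ (w i) (w j) = if i = j then lam j else 0 := by
    intro i j
    have h1 : inner ℝ (w i) (w j) = (A *ᵥ (v i)) ⬝ᵥ (A *ᵥ (v j)) := by
      rw [PiLp.inner_apply]
      simp [w, dotProduct, mul_comm]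
    have h2 : (A *ᵥ (v i)) ⬝ᵥ (A *ᵥ (v j)) = (v i : κ → ℝ) ⬝ᵥ ((Aᴴ * A) *ᵥ (v j)) := by
      rw [← Matrix.mulVec_mulVec, Matrix.dotProduct_mulVec (v i : κ → ℝ), Matrix.conjTranspose_eq_transpose_of_trivial,
        Matrix.vecMul_transpose]
    rw [h1, h2, hS.1.mulVec_eigenvectorBasis j, dotProduct_smul]
    have h3 : (v i : κ → ℝ) ⬝ᵥ (v j : κ → ℝ) = if i = j then 1 else 0 := by
      rw [← v.inner_eq_ite i j, PiLp.inner_apply]
      simp [dotProduct, mul_comm]
    rw [← hv, h3]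
    split_ifs <;> simp [hlam]
  let s : Set κ := {i | 0 < lam i}
  let u : κ → EuclideanSpace ℝ κ := fun i => (Real.sqrt (lam i))⁻¹ • w i
  have hu : Orthonormal ℝ (s.domRestrict u) := by
    rw [orthonormal_iff_ite]
    rintro ⟨i, hi⟩ ⟨j, hj⟩
    simp only [Set.domRestrict_apply, u, inner_smul_left, inner_smul_right, hw, Subtype.mk.injEq]
    have hi' : 0 < lam i := hi
    by_cases hij : i = j
    · subst hij
      have h5 : Real.sqrt (lam i) ≠ 0 := (Real.sqrt_pos.2 hi').ne'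
      simp only [if_true]
      have h6 : Real.sqrt (lam i) * Real.sqrt (lam i) = lam i := Real.mul_self_sqrt hi'.le
      simp only [conj_trivial]
      field_simp
      nlinarith [h6]
    · simp [hij]
  have hcard : Module.finrank ℝ (EuclideanSpace ℝ κ) = Fintype.card κ := finrank_euclideanSpace
  obtain ⟨b, hb⟩ := hu.exists_orthonormalBasis_extension_of_card_eq hcard
  refine ⟨colM b, colM v, fun i => Real.sqrt (lam i), colM_left b, colM_left v,
    fun i => Real.sqrt_nonneg _, ?_⟩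
  have hcol : A * colM v = colM b * Matrix.diagonal (fun i => Real.sqrt (lam i)) := by
    ext i j
    rw [Matrix.mul_diagonal]
    have h1 : (A * colM v) i j = (w j) i := by
      simp [w, Matrix.mul_apply, Matrix.mulVec, dotProduct, colM]
    rw [h1]
    by_cases hj : 0 < lam j
    · have h2 : b j = u j := hb j hj
      have h3 : w j = Real.sqrt (lam j) • u j := by
        simp only [u, smul_smul]
        rw [mul_inv_cancel₀ (Real.sqrt_pos.2 hj).ne', one_smul]
      rw [h3]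
      simp [colM, h2, mul_comm]
    · have h4 : lam j = 0 := le_antisymm (not_lt.1 hj) (hlam0 j)
      have h5 : w j = 0 := by
        have := hw j j
        rw [if_pos rfl, h4] at this
        exact inner_self_eq_zero.1 this
      rw [h5, h4]
      simp
  calc A = A * (colM v * (colM v)ᴴ) := by rw [colM_right, Matrix.mul_one]
    _ = A * colM v * (colM v)ᴴ := by rw [Matrix.mul_assoc]
    _ = _ := by rw [hcol]

/-- `min² · max`. -/
noncomputable def mm (a b : ℝ) : ℝ := (min a b) ^ 2 * max a b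

/-- Bilinear forms with orthogonal matrices. -/
theorem orth_bilin {Z : Matrix κ κ ℝ} (hZ : Zᴴ * Z = 1) (x y : κ → ℝ) :
    |∑ j, ∑ k, x j * Z j k * y k| ≤ (1 / 2) * (∑ j, x j ^ 2 + ∑ k, y k ^ 2) := by
  have h1 : ∑ j, (∑ k, Z j k * y k) ^ 2 = ∑ k, y k ^ 2 := by
    have h2 : (Z *ᵥ y) ⬝ᵥ (Z *ᵥ y) = y ⬝ᵥ y := by
      rw [Matrix.dotProduct_mulVec, ← Matrix.mulVec_transpose, Matrix.mulVec_mulVec,
        ← Matrix.conjTranspose_eq_transpose_of_trivial, hZ, Matrix.one_mulVec]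
    simpa [dotProduct, Matrix.mulVec, sq] using h2
  have h3 : ∑ j, ∑ k, x j * Z j k * y k = ∑ j, x j * (∑ k, Z j k * y k) := by
    apply Finset.sum_congr rfl; intro j _
    rw [Finset.mul_sum]
    apply Finset.sum_congr rfl; intro k _; ring
  rw [h3, ← h1, ← Finset.sum_add_distrib, Finset.mul_sum]
  refine (Finset.abs_sum_le_sum_abs _ _).trans (Finset.sum_le_sum fun j _ => ?_)
  rw [abs_le]
  constructor <;> nlinarith [sq_nonneg (x j - ∑ k, Z j k * y k), sq_nonneg (x j + ∑ k, Z j k * y k)]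

/-- The splitting of the trace sum according to the largest singular value. -/
theorem region {Y Z W : Matrix κ κ ℝ} (hY : Yᴴ * Y = 1) (hZ : Zᴴ * Z = 1) (hW : Wᴴ * W = 1)
    (α β γ : κ → ℝ) (hα : ∀ i, 0 ≤ α i) (hβ : ∀ i, 0 ≤ β i) (hγ : ∀ i, 0 ≤ γ i) :
    |∑ i, ∑ j, ∑ k, α i * Y i j * β j * Z j k * γ k * W k i| ≤
      (1 / 2) * (∑ i, ∑ j, Y i j ^ 2 * mm (α i) (β j) + ∑ j, ∑ k, Z j k ^ 2 * mm (β j) (γ k) +
        ∑ k, ∑ i, W k i ^ 2 * mm (γ k) (α i)) := by
  classical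
  let a1 : κ → κ → ℝ := fun i j => if β j ≤ α i then Y i j * β j else 0
  let a2 : κ → κ → ℝ := fun i k => if γ k ≤ α i then γ k * W k i else 0
  let b1 : κ → κ → ℝ := fun j k => if γ k ≤ β j then Z j k * γ k else 0
  let b2 : κ → κ → ℝ := fun j i => if α i < β j then α i * Y i j else 0
  let c1 : κ → κ → ℝ := fun k i => if α i < γ k then W k i * α i else 0
  let c2 : κ → κ → ℝ := fun k j => if β j < γ k then β j * Z j k else 0
  have hsplit : ∑ i, ∑ j, ∑ k, α i * Y i j * β j * Z j k * γ k * W k i =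
      (∑ i, α i * ∑ j, ∑ k, a1 i j * Z j k * a2 i k) +
      (∑ j, β j * ∑ k, ∑ i, b1 j k * W k i * b2 j i) +
      (∑ k, γ k * ∑ i, ∑ j, c1 k i * Y i j * c2 k j) := by
    have eB : (∑ j, β j * ∑ k, ∑ i, b1 j k * W k i * b2 j i) =
        ∑ i, ∑ j, ∑ k, β j * (b1 j k * W k i * b2 j i) := by
      rw [Finset.sum_comm]
      apply Finset.sum_congr rfl; intro j _
      rw [Finset.sum_comm, Finset.mul_sum]
      apply Finset.sum_congr rfl; intro k _
      rw [Finset.mul_sum]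
    have eC : (∑ k, γ k * ∑ i, ∑ j, c1 k i * Y i j * c2 k j) =
        ∑ i, ∑ j, ∑ k, γ k * (c1 k i * Y i j * c2 k j) := by
      have : ∀ i, ∑ j, ∑ k, γ k * (c1 k i * Y i j * c2 k j) =
          ∑ k, ∑ j, γ k * (c1 k i * Y i j * c2 k j) := fun i => Finset.sum_comm
      simp_rw [this]
      rw [Finset.sum_comm]
      apply Finset.sum_congr rfl; intro k _
      rw [Finset.mul_sum]
      apply Finset.sum_congr rfl; intro i _
      rw [Finset.mul_sum]
    have eA : (∑ i, α i * ∑ j, ∑ k, a1 i j * Z j k * a2 i k) =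
        ∑ i, ∑ j, ∑ k, α i * (a1 i j * Z j k * a2 i k) := by
      apply Finset.sum_congr rfl; intro i _
      rw [Finset.mul_sum]
      apply Finset.sum_congr rfl; intro j _
      rw [Finset.mul_sum]
    rw [eA, eB, eC, ← Finset.sum_add_distrib, ← Finset.sum_add_distrib]
    apply Finset.sum_congr rfl; intro i _
    rw [← Finset.sum_add_distrib, ← Finset.sum_add_distrib]
    apply Finset.sum_congr rfl; intro j _
    rw [← Finset.sum_add_distrib, ← Finset.sum_add_distrib]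
    apply Finset.sum_congr rfl; intro k _
    simp only [a1, a2, b1, b2, c1, c2]
    by_cases h1 : β j ≤ α i <;> by_cases h2 : γ k ≤ α i <;> by_cases h3 : γ k ≤ β j
    · simp only [h1, h2, h3, if_true, not_lt.2 h1, not_lt.2 h2, not_lt.2 h3, if_false]; ring
    · simp only [h1, h2, h3, if_true, not_lt.2 h1, not_lt.2 h2, if_false]; ring
    · exact absurd (h3.trans h1) h2
    · have h3' := not_le.1 h3
      have h2' := not_le.1 h2
      simp only [h1, h2, h3, if_true, not_lt.2 h1, h2', h3', if_false]; ring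
    · have h1' := not_le.1 h1
      simp only [h1, h2, h3, if_true, h1', not_lt.2 h2, not_lt.2 h3, if_false]; ring
    · have h1' := not_le.1 h1
      have h3' := not_le.1 h3
      exact absurd (h2.trans h1'.le) h3
    · have h1' := not_le.1 h1
      have h2' := not_le.1 h2
      simp only [h1, h2, h3, if_true, h1', h2', not_lt.2 h3, if_false]; ring
    · have h1' := not_le.1 h1
      have h2' := not_le.1 h2
      have h3' := not_le.1 h3
      simp only [h1, h2, h3, if_true, h1', h2', h3', if_false]; ring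
  have bA : |∑ i, α i * ∑ j, ∑ k, a1 i j * Z j k * a2 i k| ≤
      ∑ i, α i * ((1 / 2) * (∑ j, a1 i j ^ 2 + ∑ k, a2 i k ^ 2)) := by
    refine (Finset.abs_sum_le_sum_abs _ _).trans (Finset.sum_le_sum fun i _ => ?_)
    rw [abs_mul, abs_of_nonneg (hα i)]
    exact mul_le_mul_of_nonneg_left (orth_bilin hZ _ _) (hα i)
  have bB : |∑ j, β j * ∑ k, ∑ i, b1 j k * W k i * b2 j i| ≤
      ∑ j, β j * ((1 / 2) * (∑ k, b1 j k ^ 2 + ∑ i, b2 j i ^ 2)) := by
    refine (Finset.abs_sum_le_sum_abs _ _).trans (Finset.sum_le_sum fun i _ => ?_)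
    rw [abs_mul, abs_of_nonneg (hβ i)]
    exact mul_le_mul_of_nonneg_left (orth_bilin hW _ _) (hβ i)
  have bC : |∑ k, γ k * ∑ i, ∑ j, c1 k i * Y i j * c2 k j| ≤
      ∑ k, γ k * ((1 / 2) * (∑ i, c1 k i ^ 2 + ∑ j, c2 k j ^ 2)) := by
    refine (Finset.abs_sum_le_sum_abs _ _).trans (Finset.sum_le_sum fun i _ => ?_)
    rw [abs_mul, abs_of_nonneg (hγ i)]
    exact mul_le_mul_of_nonneg_left (orth_bilin hY _ _) (hγ i)
  have hmm1 : ∀ x y : ℝ, mm x y = (if y ≤ x then x * y ^ 2 else 0) + (if x < y then y * x ^ 2 else 0) := by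
    intro x y
    unfold mm
    rcases le_or_gt y x with h | h
    · rw [if_pos h, if_neg (not_lt.2 h), min_eq_right h, max_eq_left h]; ring
    · rw [if_neg (not_le.2 h), if_pos h, min_eq_left h.le, max_eq_right h.le]; ring
  have eY : ∑ i, ∑ j, Y i j ^ 2 * mm (α i) (β j) =
      ∑ i, α i * ∑ j, a1 i j ^ 2 + ∑ j, β j * ∑ i, b2 j i ^ 2 := by
    have : ∑ j, β j * ∑ i, b2 j i ^ 2 = ∑ i, ∑ j, β j * b2 j i ^ 2 := by
      rw [Finset.sum_comm]
      apply Finset.sum_congr rfl; intro j _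
      rw [Finset.mul_sum]
    rw [this, ← Finset.sum_add_distrib]
    apply Finset.sum_congr rfl; intro i _
    rw [Finset.mul_sum, ← Finset.sum_add_distrib]
    apply Finset.sum_congr rfl; intro j _
    rw [hmm1]
    simp only [a1, b2]
    split_ifs <;> ring
  have eZ : ∑ j, ∑ k, Z j k ^ 2 * mm (β j) (γ k) =
      ∑ j, β j * ∑ k, b1 j k ^ 2 + ∑ k, γ k * ∑ j, c2 k j ^ 2 := by
    have : ∑ k, γ k * ∑ j, c2 k j ^ 2 = ∑ j, ∑ k, γ k * c2 k j ^ 2 := by
      rw [Finset.sum_comm]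
      apply Finset.sum_congr rfl; intro j _
      rw [Finset.mul_sum]
    rw [this, ← Finset.sum_add_distrib]
    apply Finset.sum_congr rfl; intro i _
    rw [Finset.mul_sum, ← Finset.sum_add_distrib]
    apply Finset.sum_congr rfl; intro j _
    rw [hmm1]
    simp only [b1, c2]
    split_ifs <;> ring
  have hmm2 : ∀ x y : ℝ, mm x y = (if x ≤ y then y * x ^ 2 else 0) + (if y < x then x * y ^ 2 else 0) := by
    intro x y
    unfold mm
    rcases le_or_gt x y with h | h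
    · rw [if_pos h, if_neg (not_lt.2 h), min_eq_left h, max_eq_right h]; ring
    · rw [if_neg (not_le.2 h), if_pos h, min_eq_right h.le, max_eq_left h.le]; ring
  have eW : ∑ k, ∑ i, W k i ^ 2 * mm (γ k) (α i) =
      ∑ i, α i * ∑ k, a2 i k ^ 2 + ∑ k, γ k * ∑ i, c1 k i ^ 2 := by
    have : ∑ i, α i * ∑ k, a2 i k ^ 2 = ∑ k, ∑ i, α i * a2 i k ^ 2 := by
      rw [Finset.sum_comm]
      apply Finset.sum_congr rfl; intro j _
      rw [Finset.mul_sum]
    rw [this, ← Finset.sum_add_distrib]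
    apply Finset.sum_congr rfl; intro i _
    rw [Finset.mul_sum, ← Finset.sum_add_distrib]
    apply Finset.sum_congr rfl; intro j _
    rw [hmm2]
    simp only [a2, c1]
    split_ifs <;> ring
  rw [hsplit]
  have tA : ∑ i, α i * ((1 / 2) * (∑ j, a1 i j ^ 2 + ∑ k, a2 i k ^ 2)) =
      (1 / 2) * (∑ i, α i * ∑ j, a1 i j ^ 2 + ∑ i, α i * ∑ k, a2 i k ^ 2) := by
    rw [← Finset.sum_add_distrib, Finset.mul_sum]
    apply Finset.sum_congr rfl; intro i _; ring
  have tB : ∑ j, β j * ((1 / 2) * (∑ k, b1 j k ^ 2 + ∑ i, b2 j i ^ 2)) =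
      (1 / 2) * (∑ j, β j * ∑ k, b1 j k ^ 2 + ∑ j, β j * ∑ i, b2 j i ^ 2) := by
    rw [← Finset.sum_add_distrib, Finset.mul_sum]
    apply Finset.sum_congr rfl; intro i _; ring
  have tC : ∑ k, γ k * ((1 / 2) * (∑ i, c1 k i ^ 2 + ∑ j, c2 k j ^ 2)) =
      (1 / 2) * (∑ k, γ k * ∑ i, c1 k i ^ 2 + ∑ k, γ k * ∑ j, c2 k j ^ 2) := by
    rw [← Finset.sum_add_distrib, Finset.mul_sum]
    apply Finset.sum_congr rfl; intro i _; ring
  rw [tA] at bA
  rw [tB] at bB
  rw [tC] at bC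
  rw [eY, eZ, eW]
  refine (abs_add_three _ _ _).trans ?_
  linarith

/-- A dyadic comparison of `min² max` with the resolvent functions. -/
theorem mm_le_sum {a b : ℝ} (ha : 0 ≤ a) (hb : 0 ≤ b) (L : ℕ)
    (h1 : max a b = 0 ∨ (1 / 2 ^ L : ℝ) ≤ max a b) (h2 : max a b ≤ 2 ^ L) :
    mm a b ≤ 32 * ∑ k ∈ Finset.range (2 * L + 1), (2 ^ k / 2 ^ L : ℝ) ^ 3 *
      ((a ^ 2 / (2 ^ k / 2 ^ L) ^ 2) / (1 + a ^ 2 / (2 ^ k / 2 ^ L) ^ 2) *
       ((b ^ 2 / (2 ^ k / 2 ^ L) ^ 2) / (1 + b ^ 2 / (2 ^ k / 2 ^ L) ^ 2))) := by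
  have hnn : ∀ k ∈ Finset.range (2 * L + 1), 0 ≤ (2 ^ k / 2 ^ L : ℝ) ^ 3 *
      ((a ^ 2 / (2 ^ k / 2 ^ L) ^ 2) / (1 + a ^ 2 / (2 ^ k / 2 ^ L) ^ 2) *
       ((b ^ 2 / (2 ^ k / 2 ^ L) ^ 2) / (1 + b ^ 2 / (2 ^ k / 2 ^ L) ^ 2))) := by
    intro k _
    positivity
  rcases h1 with h1 | h1
  · have : mm a b = 0 := by unfold mm; rw [h1, mul_zero]
    rw [this]
    exact mul_nonneg (by norm_num) (Finset.sum_nonneg hnn)
  · set M := max a b with hM
    have hMpos : 0 < M := lt_of_lt_of_le (by positivity) h1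
    -- choose k with 2^k/2^L ≤ M < 2^(k+1)/2^L
    have hx1 : 1 ≤ M * 2 ^ L := by
      rw [div_le_iff₀ (by positivity)] at h1; exact h1
    obtain ⟨k, hk1, hk2⟩ := exists_nat_pow_near hx1 (by norm_num : (1:ℝ) < 2)
    have hk : k ∈ Finset.range (2 * L + 1) := by
      rw [Finset.mem_range]
      by_contra hcon
      push Not at hcon
      have : (2:ℝ) ^ (2 * L + 1) ≤ 2 ^ k := pow_le_pow_right₀ (by norm_num) hcon
      have h4 : M * 2 ^ L ≤ 2 ^ L * 2 ^ L := mul_le_mul_of_nonneg_right h2 (by positivity)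
      have h5 : (2:ℝ) ^ (2 * L + 1) = 2 * (2 ^ L * 2 ^ L) := by ring
      have h6 : (0:ℝ) < 2 ^ L * 2 ^ L := by positivity
      linarith
    refine le_trans ?_ (mul_le_mul_of_nonneg_left (Finset.single_le_sum hnn hk) (by norm_num))
    set l : ℝ := 2 ^ k / 2 ^ L with hl
    have hlpos : 0 < l := by positivity
    have hl1 : l ≤ M := by rw [hl, div_le_iff₀ (by positivity)]; exact hk1
    have hl2 : M < 2 * l := by
      rw [hl]
      rw [pow_succ] at hk2
      have : M < 2 ^ k * 2 / 2 ^ L := by rw [lt_div_iff₀ (by positivity)]; exact hk2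
      calc M < 2 ^ k * 2 / 2 ^ L := this
        _ = 2 * (2 ^ k / 2 ^ L) := by ring
    have hfrac : ∀ x : ℝ, (x ^ 2 / l ^ 2) / (1 + x ^ 2 / l ^ 2) = x ^ 2 / (l ^ 2 + x ^ 2) := by
      intro x
      have : l ^ 2 + x ^ 2 ≠ 0 := by positivity
      field_simp
    rw [hfrac, hfrac]
    -- symmetric in a b: rewrite with min and max
    have hprod : a ^ 2 / (l ^ 2 + a ^ 2) * (b ^ 2 / (l ^ 2 + b ^ 2)) =
        (min a b) ^ 2 / (l ^ 2 + (min a b) ^ 2) * (M ^ 2 / (l ^ 2 + M ^ 2)) := by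
      rcases le_total a b with h | h
      · rw [hM, min_eq_left h, max_eq_right h]
      · rw [hM, min_eq_right h, max_eq_left h]; ring
    rw [hprod]
    set q := min a b with hq
    have hq0 : 0 ≤ q := le_min ha hb
    have hqM : q ≤ M := min_le_max
    have g1 : (1 / 2 : ℝ) ≤ M ^ 2 / (l ^ 2 + M ^ 2) := by
      rw [le_div_iff₀ (by positivity)]
      nlinarith
    have g2 : q ^ 2 / (2 * M ^ 2) ≤ q ^ 2 / (l ^ 2 + q ^ 2) := by
      rcases hq0.eq_or_lt with h | h
      · rw [← h]; simp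
      · apply div_le_div_of_nonneg_left (by positivity) (by positivity)
        nlinarith
    have g3 : (M / 2) ^ 3 ≤ l ^ 3 := by
      apply pow_le_pow_left₀ (by positivity)
      linarith
    have e1 : mm a b = 32 * ((M / 2) ^ 3 * (q ^ 2 / (2 * M ^ 2) * (1 / 2))) := by
      unfold mm
      rw [← hq, ← hM]
      field_simp
      ring
    rw [e1]
    apply mul_le_mul_of_nonneg_left _ (by norm_num)
    apply mul_le_mul g3 _ (by positivity) (by positivity)
    exact mul_le_mul g2 g1 (by norm_num) (by positivity)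

end P075
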